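import Vale.Agent.P287.EvenN.Skel

/-!
Cubic fourfolds containing a plane and a scroll of lines over a plane curve of even degree, without
any hypothesis on the discriminant sextic: definitions and literal statements.
-/

namespace Vale.Agent.P287.Nod

open Polynomial Matrix Module Vale.Agent.P287 Vale.Agent.P287.Theta Vale.Agent.P287.Odd
open Vale.Agent.P287.EvenN

section defs

variable {R : Type} [CommRing R]

/-- The lattice `X`: the vectors `v` whose product `vᵀ adj(M) m` with the linear forms `m` which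
vanish on the scroll lies in `(f, g)`. -/
def modXS (f g : R) (M : Matrix (Fin 4) (Fin 4) R) (w : Fin 2 → Fin 4 → R) :
    Submodule R (Fin 4 → R) where
  carrier := {v | ∀ m : Fin 4 → R, (∀ a, g ∣ w a ⬝ᵥ m) →
    v ⬝ᵥ (M.adjugate *ᵥ m) ∈ Ideal.span {f, g}}
  add_mem' := fun {v w} hv hw m hm => by
    rw [add_dotProduct]
    exact Ideal.add_mem _ (hv m hm) (hw m hm)
  zero_mem' := fun m _ => by
    rw [zero_dotProduct]
    exact Ideal.zero_mem _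
  smul_mem' := fun c v hv m hm => by
    rw [smul_dotProduct]
    exact Ideal.mul_mem_left _ c (hv m hm)

end defs

section field

variable {k : Type} [Field k]

/-- The symmetric matrix of the fibration, without any condition on the rank. -/
structure Quad0 (f : k[X][X]) (M : Matrix (Fin 4) (Fin 4) k[X][X]) : Prop where
  symm : M.IsSymm
  wd : ∀ i j, Wd (1 + wt0 i + wt0 j) (M i j)
  det : M.det = f

end field

/-- [A] The affine block. -/
structure ConclA {k : Type} [Field k] (r : ℕ) (g f : k[X][X]) (M : Matrix (Fin 4) (Fin 4) k[X][X])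
    (w : Fin 2 → Fin 4 → k[X][X]) : Prop where
  parity : ∃ e₀, ∀ e ≥ e₀, Even (finrank k (Yd4 (2 * r) (r - 1 + e) (modW g w)) +
    finrank k (Yd4 (2 * r) (r - 1) (modXS f g M w)))
  pair : ∀ v ∈ modXS f g M w, ∀ v' ∈ modXS f g M w,
    v ⬝ᵥ (M.adjugate *ᵥ v') ∈ Ideal.span {f, g}
  codim : ∀ d : ℕ, finrank k (En (2 * r) (d + 1) : Submodule k k[X][X]) +
    3 * finrank k (En (2 * r) d : Submodule k k[X][X]) ≤
      finrank k (Yd4 (2 * r) d (modXS f g M w)) + 3 * (2 * r)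

def StmtA : Prop := ∀ (k : Type) [Field k] [CharZero k] (r : ℕ), 1 ≤ r → ∀ (g f : k[X][X])
  (M : Matrix (Fin 4) (Fin 4) k[X][X]) (w : Fin 2 → Fin 4 → k[X][X]),
  CurveN (2 * r) g f → Quad0 f M → Plane g M w → ConclA r g f M w

/-- The homogeneous pieces of the lattice `X`. -/
noncomputable def Xh (M : Matrix (Fin 4) (Fin 4) R3) (g : R3) (w : Fin 2 → Fin 4 → R3) (d : ℕ) :
    Submodule ℂ (Fin 4 → R3) where
  carrier := {v | (∀ i, (v i).IsHomogeneous (d + wt0 i)) ∧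
    ∀ (e : ℕ) (m : Fin 4 → R3), (∀ i, (m i).IsHomogeneous (e + wt0 i)) →
      (∀ a, g ∣ w a ⬝ᵥ m) → v ⬝ᵥ (M.adjugate *ᵥ m) ∈ Ideal.span {M.det, g}}
  add_mem' := by
    rintro v v' ⟨h1, h2⟩ ⟨h1', h2'⟩
    refine ⟨fun i => (h1 i).add (h1' i), fun e m hm hm' => ?_⟩
    rw [add_dotProduct]
    exact Ideal.add_mem _ (h2 e m hm hm') (h2' e m hm hm')
  zero_mem' := ⟨fun i => MvPolynomial.isHomogeneous_zero _ _ _, fun e m _ _ => by
    rw [zero_dotProduct]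
    exact Ideal.zero_mem _⟩
  smul_mem' := by
    rintro c v ⟨h1, h2⟩
    refine ⟨fun i => ?_, fun e m hm hm' => ?_⟩
    · rw [Pi.smul_apply, MvPolynomial.smul_eq_C_mul]
      exact (h1 i).C_mul c
    · rw [smul_dotProduct, MvPolynomial.smul_eq_C_mul]
      exact Ideal.mul_mem_left _ _ (h2 e m hm hm')

/-- A scroll of lines over the curve `g = 0` of degree `2 r` (weights `![1, 0, 0, 0]`). -/
structure ScrollN (M : Matrix (Fin 4) (Fin 4) R3) (g : R3) (r : ℕ) (w : Fin 2 → Fin 4 → R3) :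
    Prop where
  fib : FibShape M
  pos : 1 ≤ r
  hom : g.IsHomogeneous (2 * r)
  irr : Irreducible g
  ndvd : ¬ g ∣ M.det
  whom : ∃ e : Fin 2 → ℕ, ∀ a i, (w a i).IsHomogeneous (e a + 1 - wt0 i)
  iso : ∀ a b, g ∣ w a ⬝ᵥ (M *ᵥ w b)
  ind : ∃ i j, ¬ g ∣ mnr2 w i j

/-- [B] The homogeneous form of block [A]. -/
structure ConclB (M : Matrix (Fin 4) (Fin 4) R3) (g : R3) (r : ℕ) (w : Fin 2 → Fin 4 → R3) :
    Prop where
  parity : (∀ N : ℕ, ∃ d, N ≤ d ∧ Odd (finrank ℂ (Phi g w d) + d + r)) →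
    Even (finrank ℂ (Xh M g w (r - 1)) + 3 * r.choose 2 + (r - 1).choose 2)
  pair : ∀ k l, r - 1 ≤ k → r - 1 ≤ l → ∀ v ∈ Xh M g w k, ∀ v' ∈ Xh M g w l,
    v ⬝ᵥ (M.adjugate *ᵥ v') ∈ Ideal.span {M.det, g}
  dim : 3 * (r + 2).choose 2 + (r + 3).choose 2 ≤ finrank ℂ (Xh M g w r) + 6 * r

def StmtB : Prop := ∀ (M : Matrix (Fin 4) (Fin 4) R3) (g : R3) (r : ℕ) (w : Fin 2 → Fin 4 → R3),
  ScrollN M g r w → ConclB M g r w

/-- A net of quadrics in six variables which is glued to `g M` along `det M = 0`. -/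
structure NetX (M : Matrix (Fin 4) (Fin 4) R3) (g : R3) (M' A : Matrix (Fin 6) (Fin 6) R3)
    (v : Fin 6 → Fin 4 → R3) (c0 : ℂ) : Prop where
  hc0 : c0 ≠ 0
  sM' : M'.IsSymm
  sA : A.IsSymm
  dM' : ∀ i j, (M' i j).IsHomogeneous 1
  hMA : M' * A = M.det • (1 : Matrix (Fin 6) (Fin 6) R3)
  hdet : M'.det = MvPolynomial.C c0 * M.det
  rA : ∀ i j k l, M.det ∣ A i j * A k l - A i l * A k j
  hv : ∀ i j, M.det ∣ v i ⬝ᵥ (M.adjugate *ᵥ v j) - g * A i j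

/-- [C] Dixon's construction on an arbitrary reduced sextic. -/
def StmtC : Prop := ∀ (M : Matrix (Fin 4) (Fin 4) R3) (g : R3) (r : ℕ) (w : Fin 2 → Fin 4 → R3),
  ScrollN M g r w → ConclB M g r w → Squarefree M.det →
  (∀ v ∈ Xh M g w (r - 1), ∃ u : Fin 4 → R3, v = M *ᵥ u) →
  ∃ (M' A : Matrix (Fin 6) (Fin 6) R3) (v : Fin 6 → Fin 4 → R3) (c0 : ℂ), NetX M g M' A v c0

/-- [D6] Gluing with a net. -/
def StmtD6 : Prop := ∀ (M : Matrix (Fin 4) (Fin 4) R3) (g : R3) (n : ℕ), FibShape M → 2 ≤ n →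
  g.IsHomogeneous n → Irreducible g → ¬ g ∣ M.det → SquareMod M.det g → Squarefree M.det →
  ∀ (M' A : Matrix (Fin 6) (Fin 6) R3) (v : Fin 6 → Fin 4 → R3) (c0 : ℂ), NetX M g M' A v c0 →
  (∃ v : Fin 4 → RatK, v ≠ 0 ∧ v ⬝ᵥ (M.map (MvPolynomial.aeval tvec)) *ᵥ v = 0) ∨
    ∃ (Q : Fin 3 → Matrix (Fin 6) (Fin 6) ℂ) (l : RatK), l ≠ 0 ∧
      ∃ φ : ((Fin 4 → RatK) × RatK × RatK) ≃ₗ[RatK] (Fin 6 → RatK), ∀ v a b,
        net Q tvec (φ (v, a, b)) =
          l * (v ⬝ᵥ (M.map (MvPolynomial.aeval tvec)) *ᵥ v + a * b)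

/-- [D2] Gluing with a binary form. -/
def StmtD2 : Prop := ∀ (M : Matrix (Fin 4) (Fin 4) R3) (g : R3) (n : ℕ), FibShape M → 2 ≤ n →
  g.IsHomogeneous n → Irreducible g → ¬ g ∣ M.det → SquareMod M.det g → Squarefree M.det →
  ∀ (N : Matrix (Fin 2) (Fin 2) R3) (v : Fin 2 → Fin 4 → R3) (c : ℂ), c ≠ 0 → N.IsSymm →
  N.det = MvPolynomial.C c * M.det →
  (∀ i j, M.det ∣ v i ⬝ᵥ (M.adjugate *ᵥ v j) - g * N i j) →
  ∃ v : Fin 4 → RatK, v ≠ 0 ∧ v ⬝ᵥ (M.map (MvPolynomial.aeval tvec)) *ᵥ v = 0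

/-- [D1] The degenerate binary form: `h` is a linear form. -/
def StmtD1 : Prop := ∀ (M : Matrix (Fin 4) (Fin 4) R3) (g : R3) (n : ℕ), FibShape M → 2 ≤ n →
  g.IsHomogeneous n → Irreducible g → ¬ g ∣ M.det → SquareMod M.det g → Squarefree M.det →
  ∀ (h : R3) (s : Fin 2 → R3) (v : Fin 2 → Fin 4 → R3), h.IsHomogeneous 1 → h ≠ 0 →
  (∀ i, (s i).IsHomogeneous 1) → (∀ c : Fin 2 → ℂ, c ≠ 0 →
    MvPolynomial.C (c 0) * s 0 + MvPolynomial.C (c 1) * s 1 ≠ 0) →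
  (∀ i j, M.det ∣ v i ⬝ᵥ (M.adjugate *ᵥ v j) - g * (h * (s i * s j))) →
  ∃ v : Fin 4 → RatK, v ≠ 0 ∧ v ⬝ᵥ (M.map (MvPolynomial.aeval tvec)) *ᵥ v = 0

/-- [S] The discriminant of a smooth cubic fourfold containing a plane is reduced. -/
def StmtS : Prop := ∀ (M : Matrix (Fin 4) (Fin 4) R3), M.IsSymm →
  (∀ i j, (M i j).IsHomogeneous (1 + H925.wt i + H925.wt j)) → SmoothForm (H925.cubicOf M) →
  Squarefree M.det

end Vale.Agent.P287.Nod
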