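import Vale.Agent.P287.Nod.Generic

/-!
The gluing theorem for matrices over `ℂ[x][y]`, for a reduced determinant.
-/

namespace Vale.Agent.P287.Nod

open Polynomial Matrix Module Vale.Agent.P287 Vale.Agent.P287.Theta

set_option linter.unusedSectionVars false

lemma map_dot {R S ι : Type*} [Fintype ι] [CommRing R] [CommRing S] (φ : R →+* S)
    (x y : ι → R) : φ (x ⬝ᵥ y) = (fun i => φ (x i)) ⬝ᵥ fun i => φ (y i) := by
  simp only [dotProduct, map_sum, map_mul]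

lemma map_mulVec' {R S ι : Type*} [Fintype ι] [CommRing R] [CommRing S] (φ : R →+* S)
    (N : Matrix ι ι R) (x : ι → R) :
    (fun i => φ ((N *ᵥ x) i)) = (N.map φ) *ᵥ fun i => φ (x i) := by
  funext i
  simp only [mulVec, dotProduct, map_sum, map_mul, map_apply]

lemma map_qf {R S ι : Type*} [Fintype ι] [CommRing R] [CommRing S] (φ : R →+* S)
    (N : Matrix ι ι R) (x y : ι → R) :
    φ (x ⬝ᵥ N *ᵥ y) = (fun i => φ (x i)) ⬝ᵥ (N.map φ) *ᵥ fun i => φ (y i) := by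
  rw [map_dot, map_mulVec']

/-- The data of the gluing theorem over `ℂ[x][y]`. -/
structure ChartC {m : ℕ} (M : Matrix (Fin 4) (Fin 4) ℂ[X][X])
    (M' A : Matrix (Fin m) (Fin m) ℂ[X][X]) (g b : ℂ[X][X]) (y : Fin 4 → ℂ[X][X])
    (y' : Fin m → ℂ[X][X]) (c0 : ℂ) : Prop where
  hc0 : c0 ≠ 0
  sM : M.IsSymm
  sM' : M'.IsSymm
  sA : A.IsSymm
  hMA : M' * A = M.det • (1 : Matrix (Fin m) (Fin m) ℂ[X][X])
  f0 : M.det ≠ 0
  pg : Prime g
  dg : g.natDegree ≠ 0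
  hgf : ¬ g ∣ M.det
  cδ : IsCoprime (crF M.det) (crF (y ⬝ᵥ M.adjugate *ᵥ y))
  cA : IsCoprime (crF M.det) (crF (y' ⬝ᵥ A *ᵥ y'))
  rA : ∀ i j k l, M.det ∣ A i j * A k l - A i l * A k j
  hb : M.det ∣ b ^ 2 - (y ⬝ᵥ M.adjugate *ᵥ y) * g * (y' ⬝ᵥ A *ᵥ y')
  hdet : M'.det = C (C c0) * M.det
  hsq : ∃ s c, ¬ g ∣ c ∧ g ∣ c ^ 2 * M.det - s ^ 2

variable {n : ℕ} {M : Matrix (Fin 4) (Fin 4) ℂ[X][X]}
  {M' A : Matrix (Fin (2 * n)) (Fin (2 * n)) ℂ[X][X]} {g b : ℂ[X][X]} {y : Fin 4 → ℂ[X][X]}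
  {y' : Fin (2 * n) → ℂ[X][X]} {c0 : ℂ}

lemma ChartC.exists_w (h : ChartC M M' A g b y y' c0) :
    ∃ w : Fin n → Fin (2 * n) → FF[X], (∀ i j, crF g ∣ w i ⬝ᵥ (M'.map crF) *ᵥ w j) ∧
      ∀ x : Fin (2 * n) → FF[X], (∀ i, crF g ∣ x ⬝ᵥ (M'.map crF) *ᵥ w i) →
        ∃ (c : Fin n → FF[X]) (y : Fin (2 * n) → FF[X]), x = ∑ i, c i • w i + crF g • y := by
  obtain ⟨d0, hd0⟩ := IsAlgClosed.exists_pow_nat_eq c0 (n := 2) (by norm_num)
  obtain ⟨s, c, hc, hcs⟩ := h.hsq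
  refine Theta.exists_w ℂ (F := FF) (M'.map crF) (map_symm crF h.sM') (prime_crF h.pg h.dg) ?_
    ⟨crF (s * C (C d0)), crF c, fun h1 => hc (dvd_of_crF_dvd h.pg h.dg h1), ?_⟩
  · rw [det_crF]
    intro h1
    have h2 := dvd_of_crF_dvd h.pg h.dg h1
    rw [h.hdet] at h2
    rcases h.pg.dvd_or_dvd h2 with h3 | h3
    · exact h.pg.not_isUnit (isUnit_of_dvd_unit h3 (isUnit_CC h.hc0))
    · exact h.hgf h3
  · rw [det_crF, ← map_pow, ← map_pow, ← map_mul, ← map_sub]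
    refine map_dvd crF ?_
    rw [h.hdet, ← hd0]
    have : c ^ 2 * (C (C (d0 ^ 2)) * M.det) - (s * C (C d0)) ^ 2 =
        C (C d0) ^ 2 * (c ^ 2 * M.det - s ^ 2) := by
      simp only [map_pow]
      ring
    rw [this]
    exact hcs.mul_left _

lemma adj_map_crF {m : ℕ} (Q : Matrix (Fin m) (Fin m) ℂ[X][X]) :
    (Q.map crF).adjugate = Q.adjugate.map crF := by
  exact Matrix.ext fun i j => adj_crF Q i j

lemma ChartC.glue (h : ChartC M M' A g b y y' c0) {w : Fin n → Fin (2 * n) → FF[X]}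
    (hw1 : ∀ i j, crF g ∣ w i ⬝ᵥ (M'.map crF) *ᵥ w j)
    (hw2 : ∀ x : Fin (2 * n) → FF[X], (∀ i, crF g ∣ x ⬝ᵥ (M'.map crF) *ᵥ w i) →
        ∃ (c : Fin n → FF[X]) (y : Fin (2 * n) → FF[X]), x = ∑ i, c i • w i + crF g • y) :
    GlueC (M.map crF) (M'.map crF) (A.map crF) (crF g) (crF b) (fun i => crF (y i))
      (fun i => crF (y' i)) w := by
  have hδ : crF (y ⬝ᵥ M.adjugate *ᵥ y) = (fun i => crF (y i)) ⬝ᵥ
      (M.map crF).adjugate *ᵥ fun i => crF (y i) := by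
    rw [map_qf, adj_map_crF]
  have ha : crF (y' ⬝ᵥ A *ᵥ y') = (fun i => crF (y' i)) ⬝ᵥ
      (A.map crF) *ᵥ fun i => crF (y' i) := map_qf _ _ _ _
  have hrM : ∀ i j k l, (M.map crF).det ∣ (M.map crF).adjugate i j * (M.map crF).adjugate k l -
      (M.map crF).adjugate i l * (M.map crF).adjugate k j := fun i j k l =>
    EvenN.adj_minor _ i j k l
  have hrA : ∀ i j k l, (M.map crF).det ∣ (A.map crF) i j * (A.map crF) k l -
      (A.map crF) i l * (A.map crF) k j := by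
    intro i j k l
    rw [det_crF]
    have := map_dvd crF (h.rA i j k l)
    rwa [map_sub, map_mul, map_mul] at this
  refine ⟨map_symm crF h.sM, map_symm crF h.sM', map_symm crF h.sA, ?_, ?_, ?_, ?_, ?_,
    ?_, ?_, ?_, ?_, hw1, hw2⟩
  · rw [← Matrix.map_mul, h.hMA, det_crF]
    ext i j
    by_cases hij : i = j
    · subst hij; simp
    · simp [Matrix.one_apply_ne hij]
  · rw [det_crF, Ne, map_eq_zero_iff _ crF_injective]
    exact h.f0
  · exact (prime_crF h.pg h.dg).ne_zero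
  · rw [det_crF]
    exact ((Irreducible.coprime_iff_not_dvd (prime_crF h.pg h.dg).irreducible).2
      fun h1 => h.hgf (dvd_of_crF_dvd h.pg h.dg h1)).symm
  · rw [det_crF, ← hδ]
    exact h.cδ
  · exact rank_vec (map_symm crF h.sM).adjugate hrM _
  · rw [det_crF, ← ha]
    exact h.cA
  · exact rank_vec (map_symm crF h.sA) hrA _
  · rw [det_crF, ← hδ, ← ha]
    have := map_dvd crF h.hb
    rwa [map_sub, map_mul, map_mul, map_pow] at this

lemma ChartC.isSquare (h : ChartC M M' A g b y y' c0) :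
    IsSquare (ffMap (crF M.det * crF M'.det)) := by
  obtain ⟨d0, hd0⟩ := IsAlgClosed.exists_pow_nat_eq c0 (n := 2) (by norm_num)
  have h1 : M.det * M'.det = (C (C d0) * M.det) * (C (C d0) * M.det) := by
    rw [h.hdet, ← hd0, map_pow, map_pow]
    ring
  refine ⟨crMap (C (C d0) * M.det), ?_⟩
  have h2 := congrArg crMap h1
  rw [map_mul crMap, map_mul crMap] at h2
  rw [map_mul ffMap, ffMap_crF, ffMap_crF]
  exact h2

/-- **The gluing theorem**, for a reduced determinant. -/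
theorem ChartC.lagrangian (h : ChartC M M' A g b y y' c0) :
    ∃ U : Submodule RatK (Fin 4 ⊕ Fin (2 * n) → RatK),
      (∀ x ∈ U, ∀ y ∈ U,
        (fun i => x (Sum.inl i)) ⬝ᵥ (M.map crMap) *ᵥ (fun i => y (Sum.inl i)) -
          crMap g * ((fun i => x (Sum.inr i)) ⬝ᵥ (M'.map crMap) *ᵥ (fun i => y (Sum.inr i))) = 0)
        ∧ finrank RatK U = 2 + n := by
  obtain ⟨w, hw1, hw2⟩ := h.exists_w
  obtain ⟨U, hU, hUn⟩ := glue_lagrangian ℂ RatK (h.glue hw1 hw2) (by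
    rw [det_crF, det_crF]
    exact h.isSquare)
  refine ⟨U, fun x hx y hy => ?_, hUn⟩
  have := hU x hx y hy
  rw [psi_apply] at this
  exact this

end Vale.Agent.P287.Nod
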