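import Vale.Agent.P287.Nod.Glue
import Vale.Agent.P287.Theta.ChartGlue
import Vale.Agent.P287.EvenN.AdjMinor

/-!
Coprimality over `ℂ(x)[y]` and generic vectors.
-/

namespace Vale.Agent.P287.Nod

open Polynomial Matrix Module Vale.Agent.P287 Vale.Agent.P287.Theta

/-- Coprimality over `ℂ(x)[y]` is tested on the primes of `ℂ[x][y]` of positive degree. -/
lemma coprime_crF {f a : ℂ[X][X]} (hf : f ≠ 0)
    (h : ∀ π : ℂ[X][X], Prime π → π ∣ f → π.natDegree ≠ 0 → ¬ π ∣ a) :
    IsCoprime (crF f) (crF a) := by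
  refine isCoprime_of_prime_dvd ?_ ?_
  · rintro ⟨h1, -⟩
    exact hf (crF_injective (by rw [h1, map_zero]))
  · intro ϖ hϖ hf' ha'
    obtain ⟨b, q, hb, hbq⟩ := exists_crF ϖ
    have hbu : IsUnit (C (algebraMap ℂ[X] FF b) : FF[X]) := by
      rw [isUnit_C, isUnit_iff_ne_zero, Ne, map_eq_zero_iff _ (IsFractionRing.injective ℂ[X] FF)]
      exact hb
    have hq0 : q ≠ 0 := by
      rintro rfl
      rw [map_zero] at hbq
      rcases mul_eq_zero.1 hbq with h1 | h1
      · exact hbu.ne_zero h1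
      · exact hϖ.ne_zero h1
    set π := q.primPart with hπ
    have hprim : π.IsPrimitive := q.isPrimitive_primPart
    have hqe : q = C q.content * π := q.eq_C_content_mul_primPart
    have hcu : IsUnit (crF (C q.content)) := by
      have h1 : crF (C q.content) = C (algebraMap ℂ[X] FF q.content) := by
        rw [crF, coe_mapRingHom, map_C]
      rw [h1, isUnit_C, isUnit_iff_ne_zero, Ne,
        map_eq_zero_iff _ (IsFractionRing.injective ℂ[X] FF)]
      exact fun h2 => hq0 (content_eq_zero_iff.1 h2)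
    have hassoc : Associated ϖ (crF π) := by
      have h1 : Associated ϖ (crF q) := by
        rw [← hbq]
        obtain ⟨u, hu⟩ := hbu
        exact ⟨u, by rw [hu, mul_comm]⟩
      refine h1.trans ?_
      obtain ⟨u, hu⟩ := hcu
      refine ⟨u⁻¹, ?_⟩
      rw [hqe, map_mul, ← hu, mul_comm (u : FF[X]), mul_assoc, Units.mul_inv, mul_one]
    have hirr : Irreducible (crF π) := (hassoc.prime hϖ).irreducible
    have hπi : Irreducible π :=
      (hprim.irreducible_iff_irreducible_map_fraction_map (K := FF)).2 hirr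
    have hdeg : π.natDegree ≠ 0 := by
      intro h0
      obtain ⟨c, hc⟩ := natDegree_eq_zero.1 h0
      apply hirr.not_isUnit
      rw [← hc, crF, coe_mapRingHom, map_C, isUnit_C, isUnit_iff_ne_zero, Ne,
        map_eq_zero_iff _ (IsFractionRing.injective ℂ[X] FF)]
      rintro rfl
      rw [C_0] at hc
      exact hπi.ne_zero hc.symm
    have h1 : π ∣ f := hprim.dvd_of_fraction_map_dvd_fraction_map (K := FF)
      (hassoc.symm.dvd.trans hf')
    have h2 : π ∣ a := hprim.dvd_of_fraction_map_dvd_fraction_map (K := FF)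
      (hassoc.symm.dvd.trans ha')
    exact h π hπi.prime h1 hdeg h2

set_option linter.unusedSectionVars false

section generic

variable {D : Type} [CommRing D] [IsDomain D] [Algebra ℂ D]

/-- The value of the quadratic form of the matrix `A` at the constant vector `y`. -/
noncomputable def qv {m : ℕ} (A : Matrix (Fin m) (Fin m) D) (y : Fin m → ℂ) : D :=
  (fun i => algebraMap ℂ D (y i)) ⬝ᵥ (A *ᵥ fun i => algebraMap ℂ D (y i))

lemma qv_add {m : ℕ} (A : Matrix (Fin m) (Fin m) D) (hA : A.IsSymm) (y z : Fin m → ℂ) (t : ℂ) :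
    qv A (y + t • z) = qv A y + algebraMap ℂ D t * (2 * ((fun i => algebraMap ℂ D (y i)) ⬝ᵥ
      (A *ᵥ fun i => algebraMap ℂ D (z i)))) + algebraMap ℂ D t ^ 2 * qv A z := by
  have h1 : (fun i => algebraMap ℂ D ((y + t • z) i)) =
      (fun i => algebraMap ℂ D (y i)) + algebraMap ℂ D t • (fun i => algebraMap ℂ D (z i)) := by
    funext i
    simp only [Pi.add_apply, Pi.smul_apply, smul_eq_mul, map_add, map_mul]
  have h2 : (fun i => algebraMap ℂ D (z i)) ⬝ᵥ (A *ᵥ fun i => algebraMap ℂ D (y i)) =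
      (fun i => algebraMap ℂ D (y i)) ⬝ᵥ (A *ᵥ fun i => algebraMap ℂ D (z i)) := by
    rw [Matrix.dotProduct_mulVec, ← Matrix.mulVec_transpose, hA.eq, dotProduct_comm]
  rw [qv, h1, mulVec_add, add_dotProduct, dotProduct_add, dotProduct_add, mulVec_smul,
    dotProduct_smul, smul_dotProduct, smul_dotProduct, dotProduct_smul, h2, qv, qv]
  simp only [smul_eq_mul]
  ring

lemma exists_one {m : ℕ} (A : Matrix (Fin m) (Fin m) D) (hA : A.IsSymm) {π : D} (hπ : Prime π)
    (h : ∃ i j, ¬ π ∣ A i j) : ∃ y : Fin m → ℂ, ¬ π ∣ qv A y := by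
  by_contra hcon
  push Not at hcon
  obtain ⟨i, j, hij⟩ := h
  have h1 : ∀ i, (fun k => algebraMap ℂ D ((Pi.single i 1 : Fin m → ℂ) k)) = Pi.single i 1 := by
    intro i
    funext k
    by_cases hk : k = i
    · subst hk; simp
    · simp [Pi.single_eq_of_ne hk]
  have h2 : ∀ i j, (fun k => algebraMap ℂ D ((Pi.single i 1 : Fin m → ℂ) k)) ⬝ᵥ
      (A *ᵥ fun k => algebraMap ℂ D ((Pi.single j 1 : Fin m → ℂ) k)) = A i j := by
    intro i j
    rw [h1, h1, single_one_dotProduct, mulVec_single_one]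
    rfl
  have h3 := hcon (Pi.single i 1 + (1 : ℂ) • Pi.single j 1)
  rw [qv_add A hA] at h3
  have h4 := hcon (Pi.single i 1)
  have h5 := hcon (Pi.single j 1)
  rw [map_one, one_mul, one_pow, one_mul, h2] at h3
  have h6 : π ∣ 2 * A i j := by
    have := dvd_sub (dvd_sub h3 h4) h5
    have e : qv A (Pi.single i 1) + 2 * A i j + qv A (Pi.single j 1) - qv A (Pi.single i 1) -
        qv A (Pi.single j 1) = 2 * A i j := by ring
    rwa [e] at this
  rcases hπ.dvd_or_dvd h6 with h7 | h7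
  · have h8 : IsUnit (2 : D) := by
      have := (isUnit_iff_ne_zero.2 (two_ne_zero : (2 : ℂ) ≠ 0)).map (algebraMap ℂ D)
      rwa [map_ofNat] at this
    exact hπ.not_isUnit (isUnit_of_dvd_unit h7 h8)
  · exact hij h7

lemma finite_bad {π : D} (hπ : Prime π) (a b c : D) (h : ¬ π ∣ a ∨ ¬ π ∣ c) :
    {t : ℂ | π ∣ a + algebraMap ℂ D t * b + algebraMap ℂ D t ^ 2 * c}.Finite := by
  have hprime : (Ideal.span {π}).IsPrime := (Ideal.span_singleton_prime hπ.ne_zero).2 hπ
  let B := D ⧸ Ideal.span {π}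
  have : IsDomain B := Ideal.Quotient.isDomain _
  let φ : D →+* B := Ideal.Quotient.mk _
  have hφ : ∀ x, φ x = 0 ↔ π ∣ x := fun x => by
    rw [← Ideal.mem_span_singleton]
    exact Ideal.Quotient.eq_zero_iff_mem
  let P : B[X] := C (φ a) + C (φ b) * X + C (φ c) * X ^ 2
  have hP : P ≠ 0 := by
    intro h0
    rcases h with h | h
    · apply h
      rw [← hφ]
      have := congrArg (fun p => Polynomial.coeff p 0) h0
      simpa [P] using this
    · apply h
      rw [← hφ]
      have := congrArg (fun p => Polynomial.coeff p 2) h0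
      simpa [P, coeff_X, coeff_C] using this
  have hinj : Function.Injective (φ.comp (algebraMap ℂ D)) := RingHom.injective _
  refine Set.Finite.subset (Set.Finite.preimage hinj.injOn (finite_setOfPred_isRoot hP)) ?_
  intro t ht
  have ht' : π ∣ a + algebraMap ℂ D t * b + algebraMap ℂ D t ^ 2 * c := ht
  rw [← hφ] at ht'
  change P.IsRoot (φ (algebraMap ℂ D t))
  rw [IsRoot.def]
  simp only [P, eval_add, eval_mul, eval_C, eval_X, eval_pow]
  rw [← ht']
  simp only [map_add, map_mul, map_pow]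
  ring

/-- A vector at which a symmetric matrix is not divisible by given primes. -/
theorem exists_generic {m : ℕ} (A : Matrix (Fin m) (Fin m) D) (hA : A.IsSymm) (P : Multiset D)
    (hP : ∀ π ∈ P, Prime π) (h : ∀ π ∈ P, ∃ i j, ¬ π ∣ A i j) :
    ∃ y : Fin m → ℂ, ∀ π ∈ P, ¬ π ∣ qv A y := by
  induction P using Multiset.induction_on with
  | empty => exact ⟨0, fun π hπ => absurd hπ (Multiset.notMem_zero π)⟩
  | cons π₀ P ih =>
    obtain ⟨y, hy⟩ := ih (fun π hπ => hP π (Multiset.mem_cons_of_mem hπ))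
      (fun π hπ => h π (Multiset.mem_cons_of_mem hπ))
    obtain ⟨z, hz⟩ := exists_one A hA (hP π₀ (Multiset.mem_cons_self π₀ P))
      (h π₀ (Multiset.mem_cons_self π₀ P))
    have hfin : (⋃ π ∈ {π | π ∈ π₀ ::ₘ P}, {t : ℂ | π ∣ qv A (y + t • z)}).Finite := by
      refine Set.Finite.biUnion ?_ ?_
      · classical
        have : {π | π ∈ π₀ ::ₘ P} = ((π₀ ::ₘ P).toFinset : Set D) := by
          ext x
          simp
        rw [this]
        exact Finset.finite_toSet _
      · intro π hπ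
        have h1 : {t : ℂ | π ∣ qv A (y + t • z)} = {t : ℂ | π ∣ qv A y + algebraMap ℂ D t *
            (2 * ((fun i => algebraMap ℂ D (y i)) ⬝ᵥ (A *ᵥ fun i => algebraMap ℂ D (z i)))) +
            algebraMap ℂ D t ^ 2 * qv A z} := by
          ext t
          rw [Set.mem_ofPred_eq, Set.mem_ofPred_eq, qv_add A hA]
        rw [h1]
        refine finite_bad (hP π hπ) _ _ _ ?_
        rcases Multiset.mem_cons.1 hπ with rfl | h2
        · exact Or.inr hz
        · exact Or.inl (hy π h2)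
    obtain ⟨t, ht⟩ := hfin.exists_notMem
    refine ⟨y + t • z, fun π hπ hd => ht ?_⟩
    exact Set.mem_biUnion hπ hd

end generic

section ufd

variable {D : Type} [CommRing D] [IsDomain D] [UniqueFactorizationMonoid D] [Algebra ℂ D]

/-- A vector at which a symmetric matrix is not divisible by the prime factors of `f`. -/
theorem exists_generic' {m : ℕ} (A : Matrix (Fin m) (Fin m) D) (hA : A.IsSymm) {f : D}
    (hf : f ≠ 0) (h : ∀ π : D, Prime π → π ∣ f → ∃ i j, ¬ π ∣ A i j) :
    ∃ y : Fin m → ℂ, ∀ π : D, Prime π → π ∣ f → ¬ π ∣ qv A y := by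
  classical
  obtain ⟨y, hy⟩ := exists_generic A hA (UniqueFactorizationMonoid.factors f)
    (fun π hπ => UniqueFactorizationMonoid.prime_of_factor π hπ)
    (fun π hπ => h π (UniqueFactorizationMonoid.prime_of_factor π hπ)
      (UniqueFactorizationMonoid.dvd_of_mem_factors hπ))
  refine ⟨y, fun π hπ hπf hd => ?_⟩
  obtain ⟨q, hq, hqa⟩ := UniqueFactorizationMonoid.exists_mem_factors_of_dvd hf hπ.irreducible hπf
  exact hy q hq (hqa.symm.dvd.trans hd)

/-- If `M' A = f` and `det M' = c f` with `f` squarefree, then `A` is not divisible by the prime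
factors of `f`. -/
theorem not_dvd_all {m : ℕ} {f c π : D} (hf : Squarefree f)
    {M' A : Matrix (Fin m) (Fin m) D} (hMA : M' * A = f • (1 : Matrix (Fin m) (Fin m) D))
    (hdet : M'.det = c * f) (hπ : Prime π) (hπf : π ∣ f) : ∃ i j, ¬ π ∣ A i j := by
  by_contra hcon
  push Not at hcon
  choose B hB using hcon
  have hA : A = π • Matrix.of B := by
    ext i j
    rw [hB i j]
    rfl
  obtain ⟨f', hf'⟩ := hπf
  have hπf' : ¬ π ∣ f' := by
    rintro ⟨q, rfl⟩
    exact hπ.not_isUnit (hf π ⟨q, by rw [hf']; ring⟩)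
  have h1 := congrArg Matrix.det hMA
  rw [det_mul, hdet, hA, det_smul, det_smul, det_one, mul_one, Fintype.card_fin, hf', mul_pow] at h1
  have hf0 : f' ≠ 0 := by
    rintro rfl
    exact hπf' (dvd_zero _)
  have h2 : π ^ m * f' ^ m = π ^ m * (π * (c * f' * (Matrix.of B).det)) := by
    rw [← h1]
    ring
  have h3 := mul_left_cancel₀ (pow_ne_zero m hπ.ne_zero) h2
  exact hπf' (hπ.dvd_of_dvd_pow (Dvd.intro _ h3.symm))

end ufd

section rank

variable {R : Type*} [CommRing R]

/-- the columns of a matrix of rank one modulo `f` are proportional -/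
lemma rank_vec {m : ℕ} {A : Matrix (Fin m) (Fin m) R} (hA : A.IsSymm) {f : R}
    (h : ∀ i j k l, f ∣ A i j * A k l - A i l * A k j) (y : Fin m → R) (i j : Fin m) :
    f ∣ (y ⬝ᵥ A *ᵥ y) * A i j - (A *ᵥ y) i * (A *ᵥ y) j := by
  have e : (y ⬝ᵥ A *ᵥ y) * A i j - (A *ᵥ y) i * (A *ᵥ y) j =
      ∑ k, ∑ l, y k * y l * (A k l * A i j - A k j * A i l) := by
    have h1 : (A *ᵥ y) j = ∑ k, y k * A k j := by
      rw [mulVec, dotProduct]
      exact Finset.sum_congr rfl fun k _ => by rw [hA.apply k j]; ring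
    rw [h1]
    simp only [dotProduct, mulVec, Finset.mul_sum, Finset.sum_mul, mul_sub,
      Finset.sum_sub_distrib]
    congr 1
    · exact Finset.sum_congr rfl fun k _ => Finset.sum_congr rfl fun l _ => by ring
    · exact Finset.sum_congr rfl fun k _ => Finset.sum_congr rfl fun l _ => by ring
  rw [e]
  exact Finset.dvd_sum fun k _ => Finset.dvd_sum fun l _ => (h k l i j).mul_left _

/-- products of values on a matrix of rank one modulo `f` -/
lemma rank_sq {m : ℕ} {A : Matrix (Fin m) (Fin m) R} (hA : A.IsSymm) {f : R}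
    (h : ∀ i j k l, f ∣ A i j * A k l - A i l * A k j) (y v : Fin m → R) :
    f ∣ (y ⬝ᵥ A *ᵥ v) ^ 2 - (y ⬝ᵥ A *ᵥ y) * (v ⬝ᵥ A *ᵥ v) := by
  have h1 : y ⬝ᵥ A *ᵥ v = ∑ i, v i * (A *ᵥ y) i := by
    rw [Matrix.dotProduct_mulVec, ← Matrix.mulVec_transpose, hA.eq, dotProduct_comm]
    rfl
  have e : (y ⬝ᵥ A *ᵥ v) ^ 2 - (y ⬝ᵥ A *ᵥ y) * (v ⬝ᵥ A *ᵥ v) =
      -∑ i, ∑ j, v i * v j * ((y ⬝ᵥ A *ᵥ y) * A i j - (A *ᵥ y) i * (A *ᵥ y) j) := by
    rw [h1, sq, Finset.sum_mul_sum]
    have h2 : v ⬝ᵥ A *ᵥ v = ∑ i, ∑ j, v i * v j * A i j := by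
      simp only [dotProduct, mulVec, Finset.mul_sum]
      exact Finset.sum_congr rfl fun k _ => Finset.sum_congr rfl fun l _ => by ring
    rw [h2, Finset.mul_sum, ← Finset.sum_sub_distrib, ← Finset.sum_neg_distrib]
    refine Finset.sum_congr rfl fun i _ => ?_
    rw [Finset.mul_sum, ← Finset.sum_sub_distrib, ← Finset.sum_neg_distrib]
    exact Finset.sum_congr rfl fun j _ => by ring
  rw [e, dvd_neg]
  exact Finset.dvd_sum fun i _ => Finset.dvd_sum fun j _ => (rank_vec hA h y i j).mul_left _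

end rank

end Vale.Agent.P287.Nod
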