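import Vale.Agent.P287.Nod.Spec

/-!
Literal statements for the assembly.
-/

namespace Vale.Agent.P287.Nod

open Polynomial Matrix Module Vale.Agent.P287 Vale.Agent.P287.Theta Vale.Agent.P287.Odd
open Vale.Agent.P287.EvenN

/-- [F1] The parity gives either no new section or two new sections of degree `r - 1`. -/
def StmtF1 : Prop := ∀ (M : Matrix (Fin 4) (Fin 4) R3) (g : R3) (r : ℕ) (w : Fin 2 → Fin 4 → R3),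
  ScrollN M g r w → M.det ≠ 0 →
  Even (finrank ℂ (Xh M g w (r - 1)) + 3 * r.choose 2 + (r - 1).choose 2) →
  (∀ v ∈ Xh M g w (r - 1), ∃ u : Fin 4 → R3, v = M *ᵥ u) ∨
    ∃ v : Fin 2 → Fin 4 → R3, (∀ i, v i ∈ Xh M g w (r - 1)) ∧
      ∀ c : Fin 2 → ℂ, c ≠ 0 → ∀ u : Fin 4 → R3, c 0 • v 0 + c 1 • v 1 ≠ M *ᵥ u

/-- [F2] Two new sections of degree `r - 1`. -/
def StmtF2 : Prop := ∀ (M : Matrix (Fin 4) (Fin 4) R3) (g : R3) (r : ℕ) (w : Fin 2 → Fin 4 → R3),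
  ScrollN M g r w → ConclB M g r w → Squarefree M.det → ∀ v : Fin 2 → Fin 4 → R3,
  (∀ i, v i ∈ Xh M g w (r - 1)) →
  (∀ c : Fin 2 → ℂ, c ≠ 0 → ∀ u : Fin 4 → R3, c 0 • v 0 + c 1 • v 1 ≠ M *ᵥ u) →
  (∃ (N : Matrix (Fin 2) (Fin 2) R3) (c : ℂ), c ≠ 0 ∧ N.IsSymm ∧
    N.det = MvPolynomial.C c * M.det ∧
    ∀ i j, M.det ∣ v i ⬝ᵥ (M.adjugate *ᵥ v j) - g * N i j) ∨
  ∃ (h : R3) (s : Fin 2 → R3), h.IsHomogeneous 1 ∧ h ≠ 0 ∧ (∀ i, (s i).IsHomogeneous 1) ∧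
    (∀ c : Fin 2 → ℂ, c ≠ 0 → MvPolynomial.C (c 0) * s 0 + MvPolynomial.C (c 1) * s 1 ≠ 0) ∧
    ∀ i j, M.det ∣ v i ⬝ᵥ (M.adjugate *ᵥ v j) - g * (h * (s i * s j))

end Vale.Agent.P287.Nod
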