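import Vale.Agent.P287.Nod.ChartD
import Vale.Agent.P287.Nod.Spec

/-!
The blocks [D6] and [D2]: gluing with a net of quadrics and with a binary form.
-/

namespace Vale.Agent.P287.Nod

open Polynomial Matrix Module Vale.Agent.P287 Vale.Agent.P287.Theta

lemma dh_X0 : dh (MvPolynomial.X 0 : R3) = 1 := by
  simp [dh]

/-- The dehomogenisation of a squarefree form is squarefree. -/
theorem squarefree_dh {f : R3} {d : ℕ} (hf : f.IsHomogeneous d) (hsf : Squarefree f) :
    Squarefree (dh f) := by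
  have hf0 : f ≠ 0 := hsf.ne_zero
  have hdf0 : dh f ≠ 0 := dh_ne_zero hf hf0
  intro a ha
  by_contra hu
  have ha0 : a ≠ 0 := by
    rintro rfl
    rw [zero_mul, zero_dvd_iff] at ha
    exact hdf0 ha
  obtain ⟨A, hA, hAa⟩ := exists_homog (TD_natDegree a)
  have hA0 : A ≠ 0 := by
    rintro rfl
    rw [map_zero] at hAa
    exact ha0 hAa.symm
  have hX : Prime (MvPolynomial.X 0 : R3) := MvPolynomial.X_prime
  obtain ⟨n, B, hB, hAB⟩ := WfDvdMonoid.max_power_factor hA0 hX.irreducible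
  -- `B` is homogeneous
  obtain ⟨e, -, hBe⟩ := degree_le_of_mul ((MvPolynomial.isHomogeneous_X ℂ (0 : Fin 3)).pow n)
    (hAB ▸ hA) (hAB ▸ hA0)
  have hBa : dh B = a := by
    rw [← hAa, hAB, map_mul, map_pow, dh_X0, one_pow, one_mul]
  have h1 : dh (B * B) ∣ dh f := by
    rw [map_mul, hBa]
    exact ha
  obtain ⟨k, hk⟩ := dvd_of_dh_dvd (hBe.mul hBe) hf h1
  have h2 : IsRelPrime (B * B) (MvPolynomial.X 0 ^ k : R3) := by
    have h3 : IsRelPrime B (MvPolynomial.X 0 : R3) := by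
      rw [isRelPrime_comm]
      exact (hX.irreducible.isRelPrime_iff_not_dvd).2 hB
    exact (h3.mul_left h3).pow_right
  have h3 : B * B ∣ f := h2.dvd_of_dvd_mul_left hk
  have h4 := hsf B h3
  apply hu
  rw [← hBa]
  exact h4.map dh

/-- The adjugate matrix is not divisible by the prime factors of a squarefree determinant. -/
lemma adj_not_dvd_all {D : Type} [CommRing D] [IsDomain D] [UniqueFactorizationMonoid D]
    [Algebra ℂ D] {m : ℕ} {M : Matrix (Fin m) (Fin m) D}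
    (hf : Squarefree M.det) {π : D} (hπ : Prime π) (hπf : π ∣ M.det) :
    ∃ i j, ¬ π ∣ M.adjugate i j :=
  not_dvd_all (M' := M) (c := 1) hf (Matrix.mul_adjugate M) (one_mul _).symm hπ hπf

/-- The value of a form at a combination of sections. -/
lemma combo_dvd {R S : Type*} [CommRing R] [CommRing S] (φ : R →+* S) {m : ℕ}
    (N : Matrix (Fin 4) (Fin 4) R) (A : Matrix (Fin m) (Fin m) R) (v : Fin m → Fin 4 → R)
    (f g : R) (h : ∀ i j, f ∣ v i ⬝ᵥ (N *ᵥ v j) - g * A i j) (Y : Fin m → S) :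
    φ f ∣ (fun k => ∑ i, Y i * φ (v i k)) ⬝ᵥ ((N.map φ) *ᵥ fun k => ∑ i, Y i * φ (v i k)) -
      φ g * (Y ⬝ᵥ ((A.map φ) *ᵥ Y)) := by
  have h2 : (fun k => ∑ i, Y i * φ (v i k)) ⬝ᵥ ((N.map φ) *ᵥ fun k => ∑ i, Y i * φ (v i k)) =
      ∑ i, ∑ j, Y i * Y j * φ (v i ⬝ᵥ (N *ᵥ v j)) := by
    have h1 : (fun k => ∑ i, Y i * φ (v i k)) = ∑ i, Y i • (fun k => φ (v i k)) := by
      funext k
      rw [Finset.sum_apply]
      rfl
    rw [h1, Matrix.mulVec_sum, sum_dotProduct]
    refine Finset.sum_congr rfl fun i _ => ?_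
    rw [dotProduct_sum]
    refine Finset.sum_congr rfl fun j _ => ?_
    rw [smul_dotProduct, mulVec_smul, dotProduct_smul, map_qf, smul_eq_mul, smul_eq_mul, mul_assoc]
  have h3 : Y ⬝ᵥ ((A.map φ) *ᵥ Y) = ∑ i, ∑ j, Y i * Y j * φ (A i j) := by
    simp only [dotProduct, mulVec, Finset.mul_sum, Matrix.map_apply]
    exact Finset.sum_congr rfl fun i _ => Finset.sum_congr rfl fun j _ => by ring
  have h4 : (fun k => ∑ i, Y i * φ (v i k)) ⬝ᵥ ((N.map φ) *ᵥ fun k => ∑ i, Y i * φ (v i k)) -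
      φ g * (Y ⬝ᵥ ((A.map φ) *ᵥ Y)) =
      ∑ i, ∑ j, Y i * Y j * φ (v i ⬝ᵥ (N *ᵥ v j) - g * A i j) := by
    rw [h2, h3]
    simp only [map_sub, map_mul, mul_sub, Finset.sum_sub_distrib, Finset.mul_sum]
    congr 1
    exact Finset.sum_congr rfl fun i _ => Finset.sum_congr rfl fun j _ => by ring
  rw [h4]
  exact Finset.dvd_sum fun i _ => Finset.dvd_sum fun j _ => (map_dvd φ (h i j)).mul_left _

/-- The Lagrangian of the gluing theorem, for forms. -/
theorem lagr_R3 {n : ℕ} {M : Matrix (Fin 4) (Fin 4) R3} {g : R3} {d : ℕ} (hM : FibShape M)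
    (hd : 2 ≤ d) (hg : g.IsHomogeneous d) (hgi : Irreducible g) (hgf : ¬ g ∣ M.det)
    (hsq : SquareMod M.det g) (hsf : Squarefree M.det)
    {M' A : Matrix (Fin (2 * n)) (Fin (2 * n)) R3} {v : Fin (2 * n) → Fin 4 → R3} {c0 c1 : ℂ}
    (hc0 : c0 ≠ 0) (hc1 : c1 ≠ 0) (sM' : M'.IsSymm) (sA : A.IsSymm)
    (hMA : M' * A = M.det • (1 : Matrix (Fin (2 * n)) (Fin (2 * n)) R3))
    (hdet : M'.det = MvPolynomial.C c0 * M.det)
    (rA : ∀ i j k l, M.det ∣ A i j * A k l - A i l * A k j)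
    (hv : ∀ i j, M.det ∣ v i ⬝ᵥ (M.adjugate *ᵥ v j) - MvPolynomial.C c1 * (g * A i j)) :
    ∃ U : Submodule RatK (Fin 4 ⊕ Fin (2 * n) → RatK),
      (∀ x ∈ U, ∀ y ∈ U,
        (fun i => x (Sum.inl i)) ⬝ᵥ (M.map (MvPolynomial.aeval tvec)) *ᵥ
            (fun i => y (Sum.inl i)) -
          crMap (dh g) * ((fun i => x (Sum.inr i)) ⬝ᵥ (M'.map (MvPolynomial.aeval tvec)) *ᵥ
            (fun i => y (Sum.inr i))) = 0)
        ∧ finrank RatK U = 2 + n := by
  classical
  have hsf' : Squarefree (dh M.det) := squarefree_dh hM.det hsf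
  have hdM : (M.map dh).det = dh M.det := det_dh M
  have hdM' : (M'.map dh).det = dh M'.det := (AlgHom.map_det dh M').symm
  have hadj : (M.map dh).adjugate = M.adjugate.map dh := (AlgHom.map_adjugate dh M).symm
  have hf0 : dh M.det ≠ 0 := hsf'.ne_zero
  have sM1 : (M.map dh).IsSymm := map_symm' dh hM.symm
  have sM'1 : (M'.map dh).IsSymm := map_symm' dh sM'
  have sA1 : (A.map dh).IsSymm := map_symm' dh sA
  have hMA1 : (M'.map dh) * (A.map dh) = (M.map dh).det •
      (1 : Matrix (Fin (2 * n)) (Fin (2 * n)) ℂ[X][X]) := by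
    rw [hdM, ← Matrix.map_mul, hMA]
    refine Matrix.ext fun i j => ?_
    rw [Matrix.map_apply, Matrix.smul_apply, Matrix.smul_apply, smul_eq_mul, smul_eq_mul, map_mul]
    by_cases hij : i = j
    · subst hij
      rw [Matrix.one_apply_eq, Matrix.one_apply_eq, map_one]
    · rw [Matrix.one_apply_ne hij, Matrix.one_apply_ne hij, map_zero]
  have hdet1 : (M'.map dh).det = C (C c0) * (M.map dh).det := by
    rw [hdM', hdM, hdet, map_mul, dh_C]
  obtain ⟨y, hy⟩ := exists_generic' (M.map dh).adjugate sM1.adjugate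
    (f := (M.map dh).det) (by rw [hdM]; exact hf0)
    (fun π hπ hπf => adj_not_dvd_all (by rw [hdM]; exact hsf') hπ hπf)
  obtain ⟨y', hy'⟩ := exists_generic' (A.map dh) sA1
    (f := (M.map dh).det) (by rw [hdM]; exact hf0)
    (fun π hπ hπf => not_dvd_all (by rw [hdM]; exact hsf') hMA1 hdet1 hπ hπf)
  obtain ⟨κ, hκ⟩ := IsAlgClosed.exists_pow_nat_eq (c1⁻¹) (n := 2) (by norm_num)
  set Y : Fin 4 → ℂ[X][X] := fun i => algebraMap ℂ ℂ[X][X] (y i) with hY
  set Y' : Fin (2 * n) → ℂ[X][X] := fun i => algebraMap ℂ ℂ[X][X] (y' i) with hY'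
  -- the section
  set V : Fin 4 → ℂ[X][X] := fun k => ∑ i, Y' i * dh (v i k) with hV
  have hVV : (M.map dh).det ∣ V ⬝ᵥ ((M.map dh).adjugate *ᵥ V) -
      C (C c1) * dh g * (Y' ⬝ᵥ ((A.map dh) *ᵥ Y')) := by
    have h1 := combo_dvd (dh : R3 →+* ℂ[X][X]) M.adjugate A v M.det (MvPolynomial.C c1 * g)
      (fun i j => by rw [mul_assoc]; exact hv i j) Y'
    have h2 : (dh : R3 →+* ℂ[X][X]) (MvPolynomial.C c1 * g) = C (C c1) * dh g := by
      rw [map_mul]
      congr 1
      exact dh_C c1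
    rw [h2] at h1
    rw [hdM, hadj]
    exact h1
  have H : ChartC (M.map dh) (M'.map dh) (A.map dh) (dh g)
      (C (C κ) * (Y ⬝ᵥ ((M.map dh).adjugate *ᵥ V))) Y Y' c0 := by
    refine ⟨hc0, sM1, sM'1, sA1, hMA1, by rw [hdM]; exact hf0, prime_dh hg hd hgi,
      natDegree_dh_ne hg hd hgi, ?_, ?_, ?_, ?_, ?_, hdet1, ?_⟩
    · rw [hdM]
      exact fun h => hgf (dvd_of_dh_dvd' hg hd hgi hM.det h)
    · exact coprime_crF (by rw [hdM]; exact hf0) fun π hπ hπf _ => hy π hπ hπf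
    · exact coprime_crF (by rw [hdM]; exact hf0) fun π hπ hπf _ => hy' π hπ hπf
    · intro i j k l
      rw [hdM]
      have := dh_dvd (rA i j k l)
      rwa [map_sub, map_mul, map_mul] at this
    · have h1 := rank_sq sM1.adjugate (f := (M.map dh).det)
        (fun i j k l => EvenN.adj_minor _ i j k l) Y V
      have hk : (C (C κ) : ℂ[X][X]) ^ 2 * C (C c1) = 1 := by
        rw [← map_pow, ← map_pow, hκ, ← C_mul, ← C_mul, inv_mul_cancel₀ hc1, C_1, C_1]
      have h2 : (C (C κ) * (Y ⬝ᵥ ((M.map dh).adjugate *ᵥ V))) ^ 2 -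
          (Y ⬝ᵥ (M.map dh).adjugate *ᵥ Y) * dh g * (Y' ⬝ᵥ (A.map dh) *ᵥ Y') =
          C (C κ) ^ 2 * ((Y ⬝ᵥ ((M.map dh).adjugate *ᵥ V)) ^ 2 -
            (Y ⬝ᵥ (M.map dh).adjugate *ᵥ Y) * (V ⬝ᵥ ((M.map dh).adjugate *ᵥ V))) +
          C (C κ) ^ 2 * (Y ⬝ᵥ (M.map dh).adjugate *ᵥ Y) * (V ⬝ᵥ ((M.map dh).adjugate *ᵥ V) -
            C (C c1) * dh g * (Y' ⬝ᵥ ((A.map dh) *ᵥ Y'))) := by
        linear_combination ((Y ⬝ᵥ (M.map dh).adjugate *ᵥ Y) * dh g *
          (Y' ⬝ᵥ (A.map dh) *ᵥ Y')) * hk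
      rw [h2]
      exact dvd_add (h1.mul_left _) (hVV.mul_left _)
    · rw [hdM]
      exact hsq.dh hg hd hgi
  obtain ⟨U, hU, hUn⟩ := H.lagrangian
  refine ⟨U, fun x hx y hy => ?_, hUn⟩
  have h1 := hU x hx y hy
  rwa [map_aeval_tvec, map_aeval_tvec] at h1

theorem stmtD2 : StmtD2 := by
  intro M g n hM hn hg hgi hgf hsq hsf N v c hc hN hdet hv
  have hCC : (MvPolynomial.C c⁻¹ : R3) * MvPolynomial.C c = 1 := by
    rw [← MvPolynomial.C_mul, inv_mul_cancel₀ hc, MvPolynomial.C_1]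
  have hN01 : N 1 0 = N 0 1 := hN.apply 0 1
  obtain ⟨U, hU, hUn⟩ := lagr_R3 (n := 1) hM hn hg hgi hgf hsq hsf (M' := N.adjugate)
    (A := (MvPolynomial.C c⁻¹ : R3) • N) (v := v) (c0 := c) (c1 := c) hc hc hN.adjugate
    (by
      refine Matrix.IsSymm.ext fun i j => ?_
      rw [Matrix.smul_apply, Matrix.smul_apply, hN.apply])
    (by
      rw [Matrix.mul_smul, Matrix.adjugate_mul, hdet, smul_smul, ← mul_assoc, hCC, one_mul])
    (by
      have h1 := Matrix.det_adjugate N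
      rw [Fintype.card_fin, show 2 - 1 = 1 from rfl, pow_one] at h1
      rw [h1, hdet])
    (by
      have h1 := Matrix.det_fin_two N
      rw [hdet] at h1
      intro i j k l
      have h2 : M.det ∣ N 0 0 * N 1 1 - N 0 1 * N 1 0 := ⟨MvPolynomial.C c, by
        rw [← h1]; ring⟩
      have h3 : ∀ i j k l : Fin 2, M.det ∣ N i j * N k l - N i l * N k j := by
        intro i j k l
        have h4 : N i j * N k l - N i l * N k j = 0 ∨
            N i j * N k l - N i l * N k j = N 0 0 * N 1 1 - N 0 1 * N 1 0 ∨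
            N i j * N k l - N i l * N k j = -(N 0 0 * N 1 1 - N 0 1 * N 1 0) := by
          have key : ∀ i : Fin 2, i = 0 ∨ i = 1 := by decide
          rcases key i with rfl | rfl <;> rcases key j with rfl | rfl <;>
            rcases key k with rfl | rfl <;> rcases key l with rfl | rfl <;>
            first
              | exact Or.inl (by ring1)
              | exact Or.inr (Or.inl (by ring1))
              | exact Or.inr (Or.inr (by ring1))
        rcases h4 with h4 | h4 | h4 <;> rw [h4]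
        · exact dvd_zero _
        · exact h2
        · exact (dvd_neg).2 h2
      have h5 : ((MvPolynomial.C c⁻¹ : R3) • N) i j * ((MvPolynomial.C c⁻¹ : R3) • N) k l -
          ((MvPolynomial.C c⁻¹ : R3) • N) i l * ((MvPolynomial.C c⁻¹ : R3) • N) k j =
          MvPolynomial.C c⁻¹ * MvPolynomial.C c⁻¹ * (N i j * N k l - N i l * N k j) := by
        simp only [Matrix.smul_apply, smul_eq_mul]
        ring
      rw [h5]
      exact (h3 i j k l).mul_left _)
    (by
      intro i j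
      have h1 : MvPolynomial.C c * (g * ((MvPolynomial.C c⁻¹ : R3) • N) i j) = g * N i j := by
        rw [Matrix.smul_apply, smul_eq_mul]
        linear_combination (g * N i j) * hCC
      rw [h1]
      exact hv i j)
  exact exists_isotropic_of_binary U hU hUn

theorem stmtD6 : StmtD6 := by
  intro M g n hM hn hg hgi hgf hsq hsf M' A v c0 H
  obtain ⟨U, hU, hUn⟩ := lagr_R3 (n := 3) hM hn hg hgi hgf hsq hsf (M' := M') (A := A) (v := v)
    (c0 := c0) (c1 := 1) H.hc0 one_ne_zero H.sM' H.sA H.hMA H.hdet H.rA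
    (by
      intro i j
      rw [MvPolynomial.C_1, one_mul]
      exact H.hv i j)
  have hγ : crMap (dh g) ≠ 0 := by
    rw [Ne, map_eq_zero_iff _ crMap_injective]
    exact dh_ne_zero hg hgi.ne_zero
  rcases exists_similarity (Q := M.map (MvPolynomial.aeval tvec))
    (G := M'.map (MvPolynomial.aeval tvec)) two_ne_zero (map_symm' _ H.sM') (by
      rw [← map_aeval_tvec]
      have h1 : ((M'.map dh).map crMap).det = crMap (M'.map dh).det := by
        rw [RingHom.map_det]; rfl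
      rw [h1, Ne, map_eq_zero_iff _ crMap_injective, det_dh, H.hdet]
      have hf' : (MvPolynomial.C c0 * M.det).IsHomogeneous 6 := by
        have := (MvPolynomial.isHomogeneous_C (Fin 3) c0).mul hM.det
        rwa [zero_add] at this
      exact dh_ne_zero hf' (mul_ne_zero (by
        rw [Ne, MvPolynomial.C_eq_zero]; exact H.hc0) hsf.ne_zero)) hγ U hU (by rw [hUn]) with h | h
  · exact Or.inl h
  · right
    obtain ⟨φ, hφ⟩ := h
    choose Q' hQ' using fun i j => Theta.exists_linear (H.dM' i j)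
    refine ⟨fun k => Matrix.of fun i j => Q' i j k, (crMap (dh g))⁻¹, inv_ne_zero hγ, φ, ?_⟩
    intro v a b
    have hQ : ∀ i j, M' i j = ∑ k, MvPolynomial.C
        ((fun k => Matrix.of fun i j => Q' i j k : Fin 3 → Matrix (Fin 6) (Fin 6) ℂ) k i j) *
          MvPolynomial.X k := fun i j => hQ' i j
    exact (net_eq hQ _).trans (hφ v a b)

end Vale.Agent.P287.Nod
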