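import Vale.Agent.P287.Nod.BlockD
import Vale.Agent.P287.Theta.LinChange

/-!
The block [D1]: the degenerate binary form.
-/

namespace Vale.Agent.P287.Nod

open Polynomial Matrix Module Vale.Agent.P287 Vale.Agent.P287.Theta Vale.Agent.P287.EvenN

/-- Coprime forms have coprime dehomogenisations. -/
theorem isRelPrime_dh {f s : R3} {d e : ℕ} (hf : f.IsHomogeneous d) (hs : s.IsHomogeneous e)
    (hf0 : f ≠ 0) (h : IsRelPrime f s) : IsRelPrime (dh f) (dh s) := by
  intro a ha hb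
  have hdf0 : dh f ≠ 0 := dh_ne_zero hf hf0
  have ha0 : a ≠ 0 := by
    rintro rfl
    rw [zero_dvd_iff] at ha
    exact hdf0 ha
  obtain ⟨A, hA, hAa⟩ := exists_homog (TD_natDegree a)
  have hA0 : A ≠ 0 := by
    rintro rfl
    rw [map_zero] at hAa
    exact ha0 hAa.symm
  have hX : Prime (MvPolynomial.X 0 : R3) := MvPolynomial.X_prime
  obtain ⟨n, B, hB, hAB⟩ := WfDvdMonoid.max_power_factor hA0 hX.irreducible
  obtain ⟨l, -, hBe⟩ := degree_le_of_mul ((MvPolynomial.isHomogeneous_X ℂ (0 : Fin 3)).pow n)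
    (hAB ▸ hA) (hAB ▸ hA0)
  have hBa : dh B = a := by
    rw [← hAa, hAB, map_mul, map_pow, dh_X0, one_pow, one_mul]
  have hrel : ∀ k : ℕ, IsRelPrime B (MvPolynomial.X 0 ^ k : R3) := by
    intro k
    have h3 : IsRelPrime B (MvPolynomial.X 0 : R3) := by
      rw [isRelPrime_comm]
      exact (hX.irreducible.isRelPrime_iff_not_dvd).2 hB
    exact h3.pow_right
  have h1 : B ∣ f := by
    obtain ⟨k, hk⟩ := dvd_of_dh_dvd hBe hf (by rw [hBa]; exact ha)
    exact (hrel k).dvd_of_dvd_mul_left hk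
  have h2 : B ∣ s := by
    obtain ⟨k, hk⟩ := dvd_of_dh_dvd hBe hs (by rw [hBa]; exact hb)
    exact (hrel k).dvd_of_dvd_mul_left hk
  rw [← hBa]
  exact (h h1 h2).map dh

section diag

variable {R : Type*} [CommRing R]

/-- `diag (f, -1)` -/
def dA (f : R) : Matrix (Fin 2) (Fin 2) R := !![f, 0; 0, -1]

/-- `diag (1, -f)` -/
def dM (f : R) : Matrix (Fin 2) (Fin 2) R := !![1, 0; 0, -f]

lemma dA_symm (f : R) : (dA f).IsSymm := by
  refine Matrix.IsSymm.ext fun i j => ?_
  fin_cases i <;> fin_cases j <;> rfl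

lemma dM_symm (f : R) : (dM f).IsSymm := by
  refine Matrix.IsSymm.ext fun i j => ?_
  fin_cases i <;> fin_cases j <;> rfl

lemma dM_dA (f : R) : dM f * dA f = f • (1 : Matrix (Fin 2) (Fin 2) R) := by
  refine Matrix.ext fun i j => ?_
  fin_cases i <;> fin_cases j <;> simp [dA, dM, Matrix.mul_apply, Fin.sum_univ_two]

lemma dA_rank (f : R) (i j k l : Fin 2) : f ∣ dA f i j * dA f k l - dA f i l * dA f k j := by
  have key : ∀ i : Fin 2, i = 0 ∨ i = 1 := by decide
  rcases key i with rfl | rfl <;> rcases key j with rfl | rfl <;>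
    rcases key k with rfl | rfl <;> rcases key l with rfl | rfl <;> simp [dA]

lemma dM_det (f : R) : (dM f).det = -f := by
  rw [dM, Matrix.det_fin_two_of]
  ring

lemma dA_val (f s : R) : (![0, s] : Fin 2 → R) ⬝ᵥ (dA f *ᵥ ![0, s]) = -s ^ 2 := by
  simp [dA, Matrix.mulVec, dotProduct, Fin.sum_univ_two]
  ring

end diag

/-- The degenerate case, when `h` is the line at infinity. -/
theorem isotropic_X0 {M : Matrix (Fin 4) (Fin 4) R3} {g : R3} {d : ℕ} (hM : FibShape M)
    (hd : 2 ≤ d) (hg : g.IsHomogeneous d) (hgi : Irreducible g) (hgf : ¬ g ∣ M.det)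
    (hsq : SquareMod M.det g) (hsf : Squarefree M.det) {s : R3} {e : ℕ} (hs : s.IsHomogeneous e)
    (hfs : IsRelPrime M.det s) {v : Fin 4 → R3}
    (hv : M.det ∣ v ⬝ᵥ (M.adjugate *ᵥ v) - g * (MvPolynomial.X 0 * s ^ 2)) :
    ∃ v : Fin 4 → RatK, v ≠ 0 ∧ v ⬝ᵥ (M.map (MvPolynomial.aeval tvec)) *ᵥ v = 0 := by
  classical
  have hsf' : Squarefree (dh M.det) := squarefree_dh hM.det hsf
  have hdM : (M.map dh).det = dh M.det := det_dh M
  have hadj : (M.map dh).adjugate = M.adjugate.map dh := (AlgHom.map_adjugate dh M).symm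
  have hf0 : dh M.det ≠ 0 := hsf'.ne_zero
  have sM1 : (M.map dh).IsSymm := map_symm' dh hM.symm
  obtain ⟨y, hy⟩ := exists_generic' (M.map dh).adjugate sM1.adjugate
    (f := (M.map dh).det) (by rw [hdM]; exact hf0)
    (fun π hπ hπf => adj_not_dvd_all (by rw [hdM]; exact hsf') hπ hπf)
  obtain ⟨κ, hκ⟩ := IsAlgClosed.exists_pow_nat_eq (-1 : ℂ) (n := 2) (by norm_num)
  set Y : Fin 4 → ℂ[X][X] := fun i => algebraMap ℂ ℂ[X][X] (y i) with hY
  set V : Fin 4 → ℂ[X][X] := fun k => dh (v k) with hV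
  set f' : ℂ[X][X] := (M.map dh).det with hf'
  set s' : ℂ[X][X] := dh s with hs'
  have hVV : f' ∣ V ⬝ᵥ ((M.map dh).adjugate *ᵥ V) - dh g * s' ^ 2 := by
    have h1 := dh_dvd hv
    have h2 : dh (v ⬝ᵥ (M.adjugate *ᵥ v)) = V ⬝ᵥ ((M.map dh).adjugate *ᵥ V) := by
      rw [hadj]
      exact map_qf (dh : R3 →+* ℂ[X][X]) M.adjugate v v
    rw [map_sub, map_mul, map_mul, map_pow, h2, Theta.dh_X0, one_mul, ← hdM] at h1
    exact h1
  have hrel : IsRelPrime (dh M.det) s' := isRelPrime_dh hM.det hs hsf.ne_zero hfs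
  have hyA := dA_val f' s'
  have H : ChartC (m := 2 * 1) (M.map dh) (dM f') (dA f') (dh g)
      (C (C κ) * (Y ⬝ᵥ ((M.map dh).adjugate *ᵥ V))) Y ![0, s'] (-1) := by
    refine ⟨by norm_num, sM1, dM_symm f', dA_symm f', dM_dA f', by rw [← hf', hdM]; exact hf0,
      prime_dh hg hd hgi, natDegree_dh_ne hg hd hgi, ?_, ?_, ?_, dA_rank f', ?_, ?_, ?_⟩
    · rw [← hf', hdM]
      exact fun h => hgf (dvd_of_dh_dvd' hg hd hgi hM.det h)
    · exact coprime_crF (by rw [← hf', hdM]; exact hf0) fun π hπ hπf _ => hy π hπ hπf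
    · refine coprime_crF (by rw [← hf', hdM]; exact hf0) fun π hπ hπf _ hd => ?_
      have h2' : π ∣ s' ^ 2 := by
        obtain ⟨q, hq⟩ : π ∣ -s' ^ 2 := hyA ▸ hd
        exact ⟨-q, by linear_combination -hq⟩
      have h3 := hπ.dvd_of_dvd_pow h2'
      rw [← hf', hdM] at hπf
      exact hπ.not_isUnit (hrel hπf h3)
    · have h1 := rank_sq sM1.adjugate (f := (M.map dh).det)
        (fun i j k l => EvenN.adj_minor _ i j k l) Y V
      have hk : (C (C κ) : ℂ[X][X]) ^ 2 = -1 := by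
        rw [← map_pow, ← map_pow, hκ]
        simp
      have h2 : (C (C κ) * (Y ⬝ᵥ ((M.map dh).adjugate *ᵥ V))) ^ 2 -
          (Y ⬝ᵥ (M.map dh).adjugate *ᵥ Y) * dh g * ((![0, s'] : Fin 2 → ℂ[X][X]) ⬝ᵥ
            (dA f' *ᵥ ![0, s'])) =
          -((Y ⬝ᵥ ((M.map dh).adjugate *ᵥ V)) ^ 2 -
            (Y ⬝ᵥ (M.map dh).adjugate *ᵥ Y) * (V ⬝ᵥ ((M.map dh).adjugate *ᵥ V))) +
          -((Y ⬝ᵥ (M.map dh).adjugate *ᵥ Y) * (V ⬝ᵥ ((M.map dh).adjugate *ᵥ V) -
            dh g * s' ^ 2)) := by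
        rw [hyA]
        linear_combination ((Y ⬝ᵥ ((M.map dh).adjugate *ᵥ V)) ^ 2) * hk
      have h3 : (M.map dh).det ∣ (C (C κ) * (Y ⬝ᵥ ((M.map dh).adjugate *ᵥ V))) ^ 2 -
          (Y ⬝ᵥ (M.map dh).adjugate *ᵥ Y) * dh g * ((![0, s'] : Fin 2 → ℂ[X][X]) ⬝ᵥ
            (dA f' *ᵥ ![0, s'])) := by
        rw [h2]
        exact dvd_add ((dvd_neg).2 h1) ((dvd_neg).2 (hVV.mul_left _))
      exact h3
    · have h3 : (dM f').det = C (C (-1)) * f' := by
        rw [dM_det]
        simp only [map_neg, map_one]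
        ring
      exact h3
    · rw [← hf', hdM]
      exact hsq.dh hg hd hgi
  obtain ⟨U, hU, hUn⟩ := ChartC.lagrangian (n := 1) H
  refine exists_isotropic_of_binary (G := (dM f').map crMap) (γ := crMap (dh g)) U (fun x hx y hy => ?_) hUn
  have h1 := hU x hx y hy
  rwa [map_aeval_tvec] at h1

lemma wt0_le_one : ∀ i : Fin 4, wt0 i ≤ 1 := by decide

lemma degE_eq : ∀ i j : Fin 4, degE i j = 1 + wt0 i + wt0 j := by decide

/-- An isotropic vector over the function field gives an isotropic vector of forms. -/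
lemma exists_form {N : Matrix (Fin 4) (Fin 4) R3} (hN : FibShape N)
    (h : ∃ v : Fin 4 → RatK, v ≠ 0 ∧ v ⬝ᵥ (N.map (MvPolynomial.aeval tvec)) *ᵥ v = 0) :
    ∃ (K : ℕ) (u : Fin 4 → R3), u ≠ 0 ∧ (∀ i, (u i).IsHomogeneous (K + 1 - wt0 i)) ∧
      u ⬝ᵥ (N *ᵥ u) = 0 := by
  classical
  obtain ⟨v, hv0, hv⟩ := h
  obtain ⟨D, hD⟩ := IsLocalization.exist_integer_multiples_of_finite
    (nonZeroDivisors (MvPolynomial (Fin 2) ℂ)) v
  choose p hp using hD
  set δ : RatK := algebraMap (MvPolynomial (Fin 2) ℂ) RatK D with hδ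
  have hδ0 : δ ≠ 0 := by
    rw [hδ, Ne, map_eq_zero_iff _ (IsFractionRing.injective _ _)]
    exact nonZeroDivisors.ne_zero D.2
  have hp' : ∀ i, algebraMap (MvPolynomial (Fin 2) ℂ) RatK (p i) = δ * v i := by
    intro i
    rw [hp i, Algebra.smul_def]
  have hq : ∀ i, crMap (crInv (p i)) = δ * v i := by
    intro i
    rw [crMap_eq, crTo_crInv, hp']
  set q : Fin 4 → ℂ[X][X] := fun i => crInv (p i) with hqd
  set K := ∑ i, (Th (q i)).natDegree with hK
  have hTD : ∀ i, TD (K + 1 - wt0 i) (q i) := by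
    intro i
    have h1 : (Th (q i)).natDegree ≤ K :=
      Finset.single_le_sum (f := fun i => (Th (q i)).natDegree) (fun _ _ => Nat.zero_le _)
        (Finset.mem_univ i)
    have h2 := wt0_le_one i
    rw [TD]
    omega
  choose u hu huq using fun i => exists_homog (hTD i)
  refine ⟨K, u, ?_, hu, ?_⟩
  · rintro rfl
    apply hv0
    funext i
    have h1 := huq i
    rw [Pi.zero_apply, map_zero] at h1
    have h2 := hq i
    rw [← show q i = crInv (p i) from rfl, ← h1, map_zero] at h2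
    exact (mul_eq_zero.1 h2.symm).resolve_left hδ0
  · have hhom : (u ⬝ᵥ (N *ᵥ u)).IsHomogeneous (2 * K + 3) := by
      rw [dotProduct]
      refine MvPolynomial.IsHomogeneous.sum _ _ _ fun i _ => ?_
      rw [Matrix.mulVec, dotProduct, Finset.mul_sum]
      refine MvPolynomial.IsHomogeneous.sum _ _ _ fun j _ => ?_
      have h1 := (hu i).mul ((hN.entry i j).mul (hu j))
      have h2 : K + 1 - wt0 i + (degE i j + (K + 1 - wt0 j)) = 2 * K + 3 := by
        rw [degE_eq]
        have := wt0_le_one i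
        have := wt0_le_one j
        omega
      rwa [h2] at h1
    refine dh_eq_zero hhom ?_
    apply crMap_injective
    rw [map_zero]
    have h1 : dh (u ⬝ᵥ (N *ᵥ u)) = q ⬝ᵥ ((N.map dh) *ᵥ q) := by
      have h2 := map_qf (dh : R3 →+* ℂ[X][X]) N u u
      have h3 : (fun i => (dh : R3 →+* ℂ[X][X]) (u i)) = q := funext huq
      rw [h3] at h2
      exact h2
    have h2 : (fun i => crMap (q i)) = δ • v := by
      funext i
      rw [Pi.smul_apply, smul_eq_mul]
      exact hq i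
    rw [h1, map_qf, map_aeval_tvec, h2, Matrix.mulVec_smul, dotProduct_smul, smul_dotProduct, hv,
      smul_zero, smul_zero]

/-- An isotropic vector of forms gives an isotropic vector over the function field. -/
lemma isotropic_of_form {N : Matrix (Fin 4) (Fin 4) R3} {K : ℕ} {u : Fin 4 → R3} (hu0 : u ≠ 0)
    (hu : ∀ i, (u i).IsHomogeneous (K + 1 - wt0 i)) (huN : u ⬝ᵥ (N *ᵥ u) = 0) :
    ∃ v : Fin 4 → RatK, v ≠ 0 ∧ v ⬝ᵥ (N.map (MvPolynomial.aeval tvec)) *ᵥ v = 0 := by
  refine ⟨fun i => crMap (dh (u i)), fun h0 => hu0 ?_, ?_⟩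
  · funext i
    have h1 := congrFun h0 i
    exact dh_eq_zero (hu i) (crMap_injective (h1.trans (map_zero crMap).symm))
  · rw [← map_aeval_tvec]
    have h2 := map_qf (crMap.comp (dh : R3 →+* ℂ[X][X])) N u u
    rw [huN, map_zero] at h2
    have h3 : (N.map dh).map crMap = N.map (crMap.comp (dh : R3 →+* ℂ[X][X])) := by
      ext i j
      rfl
    rw [h3]
    exact h2.symm

/-- Isotropy is invariant under linear changes of coordinates. -/
lemma isotropic_sb {M : Matrix (Fin 4) (Fin 4) R3} (hM : FibShape M)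
    {T S : Matrix (Fin 3) (Fin 3) ℂ} (hTS : T * S = 1)
    (h : ∃ v : Fin 4 → RatK, v ≠ 0 ∧
      v ⬝ᵥ ((M.map (sb T)).map (MvPolynomial.aeval tvec)) *ᵥ v = 0) :
    ∃ v : Fin 4 → RatK, v ≠ 0 ∧ v ⬝ᵥ (M.map (MvPolynomial.aeval tvec)) *ᵥ v = 0 := by
  have hST : S * T = 1 := mul_eq_one_comm.mp hTS
  obtain ⟨K, u, hu0, hu, huM⟩ := exists_form (hM.sb T) h
  refine isotropic_of_form (u := fun i => sb S (u i)) (K := K) (fun h0 => hu0 ?_)
    (fun i => sb_homog S (hu i)) ?_
  · funext i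
    have h1 := congrArg (sb T) (congrFun h0 i)
    rw [sb_inv hST, Pi.zero_apply, map_zero] at h1
    exact h1
  · have h2 := map_qf (sb S : R3 →+* R3) (M.map (sb T)) u u
    rw [huM, map_zero] at h2
    have h3 : (M.map (sb T)).map (sb S : R3 →+* R3) = M := by
      ext i j
      exact congrArg _ (sb_inv hTS (M i j))
    rw [h3] at h2
    exact h2.symm

/-- Every linear form is a coordinate. -/
lemma exists_sb_X0 {h : R3} (hh : h.IsHomogeneous 1) (h0 : h ≠ 0) :
    ∃ T S : Matrix (Fin 3) (Fin 3) ℂ, T * S = 1 ∧ sb T h = MvPolynomial.X 0 := by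
  obtain ⟨A, hA, hAh⟩ := exists_lin_eq_X hh h0
  have hAh' : sb A h = MvPolynomial.X 2 := hAh
  set W : Matrix (Fin 3) (Fin 3) ℂ := !![0, 0, 1; 0, 1, 0; 1, 0, 0] with hW
  have hWW : W * W = 1 := by
    ext i j
    fin_cases i <;> fin_cases j <;> simp [hW, Matrix.mul_apply, Fin.sum_univ_three]
  refine ⟨A * W, W * A⁻¹, ?_, ?_⟩
  · rw [Matrix.mul_assoc, ← Matrix.mul_assoc W, hWW, Matrix.one_mul, Matrix.mul_nonsing_inv _ hA]
  · rw [← sb_sb, hAh', sb_X]
    simp [hW, Fin.sum_univ_three]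

lemma sb_squarefree {T S : Matrix (Fin 3) (Fin 3) ℂ} (hTS : T * S = 1) {f : R3}
    (hf : Squarefree f) : Squarefree (sb T f) := by
  have hST : S * T = 1 := mul_eq_one_comm.mp hTS
  intro a ha
  have h1 := map_dvd (sb S) ha
  rw [map_mul, sb_inv hTS] at h1
  have h2 := (hf _ h1).map (sb T)
  rwa [sb_inv hST] at h2

lemma sb_isRelPrime {T S : Matrix (Fin 3) (Fin 3) ℂ} (hTS : T * S = 1) {f s : R3}
    (h : IsRelPrime f s) : IsRelPrime (sb T f) (sb T s) := by
  have hST : S * T = 1 := mul_eq_one_comm.mp hTS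
  intro a ha hb
  have h1 := map_dvd (sb S) ha
  have h2 := map_dvd (sb S) hb
  rw [sb_inv hTS] at h1 h2
  have h3 := (h h1 h2).map (sb T)
  rwa [sb_inv hST] at h3

theorem stmtD1 : StmtD1 := by
  classical
  intro M g n hM hn hg hgi hgf hsq hsf h s v hh hh0 hs hind hv
  have hs0 : s 0 ≠ 0 := by
    have := hind ![1, 0] (by
      intro h0
      exact one_ne_zero (congrFun h0 0))
    simpa using this
  -- a generic combination of the two linear forms
  have hprim : ∀ π : R3, Prime π → π ∣ M.det → ∃ i j, ¬ π ∣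
      (Matrix.of fun i j => s i * s j : Matrix (Fin 2) (Fin 2) R3) i j := by
    intro π hπ _
    by_contra hcon
    push Not at hcon
    have h1 : ∀ i, π ∣ s i := by
      intro i
      have := hcon i i
      rw [Matrix.of_apply] at this
      rcases hπ.dvd_or_dvd this with h | h <;> exact h
    choose a ha using h1
    have ha0 : π * a 0 ≠ 0 := by rw [← ha 0]; exact hs0
    obtain ⟨l, hl⟩ := homog_of_mul (a := π) (b := a 0) (by rw [← ha 0]; exact hs 0) ha0
    have hl0 : l ≠ 0 := by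
      rintro rfl
      have h2 := (MvPolynomial.totalDegree_zero_iff_isHomogeneous _).2 hl
      rw [MvPolynomial.totalDegree_eq_zero_iff_eq_C] at h2
      apply hπ.not_isUnit
      rw [h2]
      refine (isUnit_iff_ne_zero.2 ?_).map MvPolynomial.C
      intro h3
      rw [h3, MvPolynomial.C_0] at h2
      exact hπ.ne_zero h2
    have hconst : ∀ i, ∃ c : ℂ, a i = MvPolynomial.C c := by
      intro i
      by_cases hi : π * a i = 0
      · exact ⟨0, by
          rw [MvPolynomial.C_0]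
          exact (mul_eq_zero.1 hi).resolve_left hπ.ne_zero⟩
      · obtain ⟨m, hm, ham⟩ := degree_le_of_mul hl (by rw [← ha i]; exact hs i) hi
        obtain rfl : m = 0 := by omega
        have h2 := (MvPolynomial.totalDegree_zero_iff_isHomogeneous _).2 ham
        rw [MvPolynomial.totalDegree_eq_zero_iff_eq_C] at h2
        exact ⟨_, h2⟩
    choose c hc using hconst
    have hc0 : c 0 ≠ 0 := by
      intro h0
      rw [hc, h0, MvPolynomial.C_0, mul_zero] at ha0
      exact ha0 rfl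
    refine hind ![c 1, -c 0] (fun h0 => ?_) ?_
    · have := congrFun h0 1
      simp only [Matrix.cons_val_one, Matrix.cons_val_fin_one, Pi.zero_apply, neg_eq_zero] at this
      exact hc0 this
    · rw [ha 0, ha 1, hc, hc]
      simp only [Matrix.cons_val_zero, Matrix.cons_val_one, Matrix.cons_val_fin_one, map_neg]
      ring
  obtain ⟨y, hy⟩ := exists_generic' (Matrix.of fun i j => s i * s j : Matrix (Fin 2) (Fin 2) R3)
    (Matrix.IsSymm.ext fun i j => by rw [Matrix.of_apply, Matrix.of_apply, mul_comm]) hsf.ne_zero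
    hprim
  set σ : R3 := MvPolynomial.C (y 0) * s 0 + MvPolynomial.C (y 1) * s 1 with hσ
  have hqv : qv (Matrix.of fun i j => s i * s j : Matrix (Fin 2) (Fin 2) R3) y = σ ^ 2 := by
    rw [qv, hσ]
    simp only [Matrix.mulVec, dotProduct, Fin.sum_univ_two, Matrix.of_apply,
      MvPolynomial.algebraMap_eq]
    ring
  have hrel : IsRelPrime M.det σ := by
    rw [UniqueFactorizationMonoid.isRelPrime_iff_no_prime_factors hsf.ne_zero]
    intro π hπ1 hπ2 hπ
    apply hy π hπ hπ1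
    rw [hqv]
    exact dvd_pow hπ2 two_ne_zero
  have hσh : σ.IsHomogeneous 1 := ((hs 0).C_mul _).add ((hs 1).C_mul _)
  -- the section
  set V : Fin 4 → R3 := fun k => ∑ i, MvPolynomial.C (y i) * v i k with hV
  have hVV : M.det ∣ V ⬝ᵥ (M.adjugate *ᵥ V) - g * (h * σ ^ 2) := by
    have h1 := combo_dvd (RingHom.id R3) M.adjugate (Matrix.of fun i j => h * (s i * s j)) v
      M.det g hv (fun i => MvPolynomial.C (y i))
    have h2 : (fun i => (MvPolynomial.C (y i) : R3)) ⬝ᵥ
        (((Matrix.of fun i j => h * (s i * s j) : Matrix (Fin 2) (Fin 2) R3).map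
          (RingHom.id R3)) *ᵥ fun i => MvPolynomial.C (y i)) = h * σ ^ 2 := by
      rw [hσ]
      simp only [Matrix.mulVec, dotProduct, Fin.sum_univ_two, Matrix.of_apply, Matrix.map_apply,
        RingHom.id_apply]
      ring
    rw [h2] at h1
    have h3 : M.adjugate.map (RingHom.id R3) = M.adjugate := by
      ext i j
      rfl
    rw [h3] at h1
    exact h1
  -- the change of coordinates
  obtain ⟨T, S, hTS, hTh⟩ := exists_sb_X0 hh hh0
  refine isotropic_sb hM hTS ?_
  have hMT : (M.map (sb T)).det = sb T M.det := det_sb T M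
  have hadjT : (M.map (sb T)).adjugate = M.adjugate.map (sb T) :=
    (AlgHom.map_adjugate (sb T) M).symm
  refine isotropic_X0 (M := M.map (sb T)) (g := sb T g) (s := sb T σ) (v := fun k => sb T (V k))
    (hM.sb T) hn (sb_homog T hg) (sb_irreducible hTS hgi) ?_ ?_ ?_ (sb_homog T hσh) ?_ ?_
  · rw [hMT, sb_dvd_iff hTS]
    exact hgf
  · rw [hMT]
    exact hsq.sb hTS
  · rw [hMT]
    exact sb_squarefree hTS hsf
  · rw [hMT]
    exact sb_isRelPrime hTS hrel
  · have h1 := map_dvd (sb T) hVV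
    have h2 := map_qf (sb T : R3 →+* R3) M.adjugate V V
    have h2' : sb T (V ⬝ᵥ (M.adjugate *ᵥ V)) = (fun i => sb T (V i)) ⬝ᵥ
        ((M.adjugate.map (sb T)) *ᵥ fun i => sb T (V i)) := h2
    rw [map_sub, map_mul, map_mul, map_pow, h2', hTh] at h1
    rw [hMT, hadjT]
    exact h1

end Vale.Agent.P287.Nod
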