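import Vale.Agent.P287.Nod.Main
import Vale.Agent.P287.H684.Nod.F1

/-!
Scrolls of lines over plane curves of even degree in smooth cubic fourfolds which contain a plane,
without any hypothesis on the discriminant sextic.
-/

namespace Vale.Agent.P287.Nod

open Polynomial Matrix Module Vale.Agent.P287 Vale.Agent.P287.Theta Vale.Agent.P287.Odd
open Vale.Agent.P287.EvenN Vale.Agent.P287.H925 Vale.Agent.P287.H925.NetResult

/-- **Even scrolls, numerical form, arbitrary discriminant sextic.** -/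
theorem even_scroll_theorem {M : Matrix (Fin 4) (Fin 4) R3} (hM : M.IsSymm)
    (hdeg : ∀ i j, (M i j).IsHomogeneous (1 + wt i + wt j)) (hs : SmoothForm (cubicOf M))
    {g : R3} {r : ℕ} (hg : Irreducible g) (hgr : g.IsHomogeneous (2 * r))
    (hgf : ¬ g ∣ M.det) {w : Fin 2 → Fin 4 → R3} {e : Fin 2 → ℕ}
    (hw : ∀ a i, (w a i).IsHomogeneous (e a + 1 - wt i))
    (hiso : ∀ a b, g ∣ w a ⬝ᵥ (M *ᵥ w b)) {i j : Fin 4}
    (hij : ¬ g ∣ w 0 i * w 1 j - w 0 j * w 1 i)
    (hodd : ∀ N : ℕ, ∃ d, N ≤ d ∧ Odd (finrank ℂ (PhiW g w wt d) + d + r)) :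
    RationalHypersurface (cubicOf M) :=
  even_scroll_of H684.Nod.stmtF1 hM hdeg hs hg hgr hgf hw hiso hij hodd

end Vale.Agent.P287.Nod
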