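import Vale.Agent.P287.Theta.Glue

/-!
Gluing: `M ⊥ -g M'` has a self-dual lattice; the determinant of `M` is not supposed to be prime,
and the gluing vectors are arbitrary.
-/

set_option linter.unusedSectionVars false

namespace Vale.Agent.P287.Nod

open Module Matrix Vale.Agent.P287.Theta

variable {O : Type*} [CommRing O] [IsDomain O] [IsPrincipalIdealRing O]

/-- The data needed to glue `M` and `-g M'` along `f` and along `g`. -/
structure GlueC {m : ℕ} {ι : Type*} [Fintype ι] (M : Matrix (Fin 4) (Fin 4) O)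
    (M' A : Matrix (Fin m) (Fin m) O) (g b : O) (y : Fin 4 → O) (y' : Fin m → O)
    (w : ι → Fin m → O) : Prop where
  sM : M.IsSymm
  sM' : M'.IsSymm
  sA : A.IsSymm
  hMA : M' * A = M.det • (1 : Matrix (Fin m) (Fin m) O)
  f0 : M.det ≠ 0
  g0 : g ≠ 0
  cop : IsCoprime M.det g
  cδ : IsCoprime M.det (y ⬝ᵥ M.adjugate *ᵥ y)
  rM : ∀ i j, M.det ∣ (y ⬝ᵥ M.adjugate *ᵥ y) * M.adjugate i j -
    (M.adjugate *ᵥ y) i * (M.adjugate *ᵥ y) j
  cA : IsCoprime M.det (y' ⬝ᵥ A *ᵥ y')
  rA : ∀ i j, M.det ∣ (y' ⬝ᵥ A *ᵥ y') * A i j - (A *ᵥ y') i * (A *ᵥ y') j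
  hb : M.det ∣ b ^ 2 - (y ⬝ᵥ M.adjugate *ᵥ y) * g * (y' ⬝ᵥ A *ᵥ y')
  w1 : ∀ i j, g ∣ w i ⬝ᵥ M' *ᵥ w j
  w2 : ∀ x : Fin m → O, (∀ i, g ∣ x ⬝ᵥ M' *ᵥ w i) →
    ∃ (c : ι → O) (y : Fin m → O), x = ∑ i, c i • w i + g • y

variable (K : Type*) [Field K] [Algebra O K] [IsFractionRing O K]

/-- The vector glueing along `f`. -/
def glueV {m : ℕ} (M : Matrix (Fin 4) (Fin 4) O) (A : Matrix (Fin m) (Fin m) O) (b : O)
    (y : Fin 4 → O) (y' : Fin m → O) : Fin 4 ⊕ Fin m → K :=
  Sum.elim (fun i => algebraMap O K (b * (M.adjugate *ᵥ y) i) / algebraMap O K M.det)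
    (fun i => algebraMap O K ((y ⬝ᵥ M.adjugate *ᵥ y) * (A *ᵥ y') i) / algebraMap O K M.det)

variable {K} {m : ℕ} {ι : Type*} [Fintype ι] {M : Matrix (Fin 4) (Fin 4) O}
    {M' A : Matrix (Fin m) (Fin m) O} {g b : O} {y : Fin 4 → O} {y' : Fin m → O}
    {w : ι → Fin m → O}

lemma mul_adj_vec (M : Matrix (Fin 4) (Fin 4) O) (y : Fin 4 → O) (i : Fin 4) :
    ∑ j, M i j * (M.adjugate *ᵥ y) j = M.det * y i := by
  have h : (M *ᵥ (M.adjugate *ᵥ y)) i = M.det * y i := by
    rw [mulVec_mulVec, mul_adjugate, smul_mulVec, one_mulVec]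
    rfl
  exact h

lemma mul_A_vec (hMA : M' * A = M.det • (1 : Matrix (Fin m) (Fin m) O)) (y' : Fin m → O)
    (i : Fin m) : ∑ j, M' i j * (A *ᵥ y') j = M.det * y' i := by
  have h : (M' *ᵥ (A *ᵥ y')) i = M.det * y' i := by
    rw [mulVec_mulVec, hMA, smul_mulVec, one_mulVec]
    rfl
  exact h

lemma psi_glueV (h : GlueC M M' A g b y y' w) (u : Fin 4 ⊕ Fin m → K) :
    Matrix.toBilin' (psi K M M' g) u (glueV K M A b y y') =
      algebraMap O K b * (∑ i, u (Sum.inl i) * algebraMap O K (y i)) -
        algebraMap O K (g * (y ⬝ᵥ M.adjugate *ᵥ y)) *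
          (∑ i, u (Sum.inr i) * algebraMap O K (y' i)) := by
  have hf : algebraMap O K M.det ≠ 0 := by
    rw [Ne, map_eq_zero_iff _ (IsFractionRing.injective O K)]
    exact h.f0
  have h1 : M.map (algebraMap O K) *ᵥ (fun i => glueV K M A b y y' (Sum.inl i)) =
      fun i => algebraMap O K b * algebraMap O K (y i) := by
    funext i
    have h3 := congrArg (algebraMap O K) (mul_adj_vec M y i)
    simp only [map_sum, map_mul] at h3
    rw [Matrix.mulVec, dotProduct]
    simp only [glueV, Sum.elim_inl, Matrix.map_apply, map_mul]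
    have h4 : ∀ j, algebraMap O K (M i j) *
        (algebraMap O K b * algebraMap O K ((M.adjugate *ᵥ y) j) / algebraMap O K M.det) =
        (algebraMap O K b / algebraMap O K M.det) *
          (algebraMap O K (M i j) * algebraMap O K ((M.adjugate *ᵥ y) j)) := by
      intro j; ring
    simp only [h4, ← Finset.mul_sum]
    rw [h3]
    field_simp
  have h1' : M'.map (algebraMap O K) *ᵥ (fun i => glueV K M A b y y' (Sum.inr i)) =
      fun i => algebraMap O K (y ⬝ᵥ M.adjugate *ᵥ y) * algebraMap O K (y' i) := by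
    funext i
    have h3 := congrArg (algebraMap O K) (mul_A_vec h.hMA y' i)
    simp only [map_sum, map_mul] at h3
    rw [Matrix.mulVec, dotProduct]
    simp only [glueV, Sum.elim_inr, Matrix.map_apply, map_mul]
    have h4 : ∀ j, algebraMap O K (M' i j) *
        (algebraMap O K (y ⬝ᵥ M.adjugate *ᵥ y) * algebraMap O K ((A *ᵥ y') j) /
          algebraMap O K M.det) =
        (algebraMap O K (y ⬝ᵥ M.adjugate *ᵥ y) / algebraMap O K M.det) *
          (algebraMap O K (M' i j) * algebraMap O K ((A *ᵥ y') j)) := by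
      intro j; ring
    simp only [h4, ← Finset.mul_sum]
    rw [h3]
    field_simp
  rw [psi_apply, h1, h1']
  generalize y ⬝ᵥ M.adjugate *ᵥ y = δ
  simp only [dotProduct, map_mul, Finset.mul_sum]
  congr 1
  · exact Finset.sum_congr rfl fun i _ => by ring
  · exact Finset.sum_congr rfl fun i _ => by ring

lemma psi_glueG (h : GlueC M M' A g b y y' w) (u : Fin 4 ⊕ Fin m → K) (x : Fin m → O) :
    Matrix.toBilin' (psi K M M' g) u (glueG K g x) =
      -((fun i => u (Sum.inr i)) ⬝ᵥ M'.map (algebraMap O K) *ᵥ (fun i => algebraMap O K (x i))) := by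
  have hg : algebraMap O K g ≠ 0 := by
    rw [Ne, map_eq_zero_iff _ (IsFractionRing.injective O K)]
    exact h.g0
  have h1 : (fun i => glueG K g x (Sum.inr i)) =
      (algebraMap O K g)⁻¹ • (fun i => algebraMap O K (x i)) := by
    funext i
    simp only [glueG, Sum.elim_inr, Pi.smul_apply, smul_eq_mul]
    ring
  have h2 : (fun i => glueG K g x (Sum.inl i)) = (0 : Fin 4 → K) := by
    funext i
    simp [glueG]
  rw [psi_apply, h1, h2, Matrix.mulVec_zero, dotProduct_zero, Matrix.mulVec_smul, dotProduct_smul,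
    smul_eq_mul, mul_inv_cancel_left₀ hg, zero_sub]

/-- Generators of the glued lattice. -/
def glueGen (K : Type*) [Field K] [Algebra O K] {m : ℕ} {ι : Type*} (M : Matrix (Fin 4) (Fin 4) O)
    (A : Matrix (Fin m) (Fin m) O) (g b : O) (y : Fin 4 → O) (y' : Fin m → O)
    (w : ι → Fin m → O) : Set (Fin 4 ⊕ Fin m → K) :=
  Set.range (fun i => (Pi.single i 1 : Fin 4 ⊕ Fin m → K)) ∪
    ({glueV K M A b y y'} ∪ Set.range fun i => glueG K g (w i))

/-- The glued lattice. -/
def glueLat (K : Type*) [Field K] [Algebra O K] {m : ℕ} {ι : Type*} (M : Matrix (Fin 4) (Fin 4) O)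
    (A : Matrix (Fin m) (Fin m) O) (g b : O) (y : Fin 4 → O) (y' : Fin m → O)
    (w : ι → Fin m → O) : Submodule O (Fin 4 ⊕ Fin m → K) :=
  Submodule.span O (glueGen K M A g b y y' w)

lemma std_mem (x : Fin 4 ⊕ Fin m → O) :
    (fun i => algebraMap O K (x i)) ∈ glueLat K M A g b y y' w := by
  have : (fun i => algebraMap O K (x i)) =
      ∑ i, x i • (Pi.single i 1 : Fin 4 ⊕ Fin m → K) := by
    funext j
    rw [Finset.sum_apply, Finset.sum_eq_single j]
    · rw [Pi.smul_apply, Pi.single_eq_same, Algebra.smul_def, mul_one]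
    · intro i _ hij
      rw [Pi.smul_apply, Pi.single_eq_of_ne (Ne.symm hij), smul_zero]
    · simp
  rw [this]
  exact Submodule.sum_mem _ fun i _ => Submodule.smul_mem _ _
    (Submodule.subset_span (Or.inl ⟨i, rfl⟩))

lemma glueV_mem : glueV K M A b y y' ∈ glueLat K M A g b y y' w :=
  Submodule.subset_span (Or.inr (Or.inl rfl))

lemma glueG_mem (i : ι) : glueG K g (w i) ∈ glueLat K M A g b y y' w :=
  Submodule.subset_span (Or.inr (Or.inr ⟨i, rfl⟩))

lemma single_range (x z : Fin 4 ⊕ Fin m) : (Pi.single x 1 : Fin 4 ⊕ Fin m → K) z ∈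
    (algebraMap O K).range := by
  by_cases hxy : z = x
  · subst hxy; exact ⟨1, by simp⟩
  · exact ⟨0, by simp [Pi.single_eq_of_ne hxy]⟩

lemma glue_int (h : GlueC M M' A g b y y' w) : ∀ u ∈ glueLat K M A g b y y' w,
    ∀ v ∈ glueLat K M A g b y y' w,
      Matrix.toBilin' (psi K M M' g) u v ∈ (algebraMap O K).range := by
  have hf : algebraMap O K M.det ≠ 0 := by
    rw [Ne, map_eq_zero_iff _ (IsFractionRing.injective O K)]
    exact h.f0
  have hg : algebraMap O K g ≠ 0 := by
    rw [Ne, map_eq_zero_iff _ (IsFractionRing.injective O K)]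
    exact h.g0
  -- pairs of generators
  have hF : ∀ s ∈ glueGen K M A g b y y' w,
      Matrix.toBilin' (psi K M M' g) s (glueV K M A b y y') ∈ (algebraMap O K).range := by
    rintro s (⟨i, rfl⟩ | rfl | ⟨i, rfl⟩)
    · rw [psi_glueV h]
      exact sub_mem (mul_mem ⟨_, rfl⟩ (sum_mem fun k _ => mul_mem (single_range _ _) ⟨_, rfl⟩))
        (mul_mem ⟨_, rfl⟩ (sum_mem fun k _ => mul_mem (single_range _ _) ⟨_, rfl⟩))
    · rw [psi_glueV h]
      obtain ⟨c, hc⟩ := h.hb
      refine ⟨(y ⬝ᵥ M.adjugate *ᵥ y) * c, ?_⟩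
      have e1 : ∑ i, glueV K M A b y y' (Sum.inl i) * algebraMap O K (y i) =
          algebraMap O K (b * (y ⬝ᵥ M.adjugate *ᵥ y)) / algebraMap O K M.det := by
        have : ∀ i, glueV K M A b y y' (Sum.inl i) * algebraMap O K (y i) =
            algebraMap O K (b * (y i * (M.adjugate *ᵥ y) i)) / algebraMap O K M.det := by
          intro i
          simp only [glueV, Sum.elim_inl, map_mul]
          ring
        simp only [this]
        rw [← Finset.sum_div, ← map_sum, ← Finset.mul_sum]
        rfl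
      have e2 : ∑ i, glueV K M A b y y' (Sum.inr i) * algebraMap O K (y' i) =
          algebraMap O K ((y ⬝ᵥ M.adjugate *ᵥ y) * (y' ⬝ᵥ A *ᵥ y')) / algebraMap O K M.det := by
        have : ∀ i, glueV K M A b y y' (Sum.inr i) * algebraMap O K (y' i) =
            algebraMap O K ((y ⬝ᵥ M.adjugate *ᵥ y) * (y' i * (A *ᵥ y') i)) /
              algebraMap O K M.det := by
          intro i
          simp only [glueV, Sum.elim_inr, map_mul]
          ring
        simp only [this]
        rw [← Finset.sum_div, ← map_sum, ← Finset.mul_sum]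
        rfl
      rw [e1, e2]
      generalize y ⬝ᵥ M.adjugate *ᵥ y = δ at hc ⊢
      generalize y' ⬝ᵥ A *ᵥ y' = a at hc ⊢
      have h1 := congrArg (algebraMap O K) hc
      simp only [map_sub, map_mul, map_pow] at h1
      simp only [map_mul]
      field_simp
      linear_combination (-(algebraMap O K δ)) * h1
    · rw [psi_glueV h]
      refine ⟨-((y ⬝ᵥ M.adjugate *ᵥ y) * (∑ k, w i k * y' k)), ?_⟩
      have e1 : ∑ k, glueG K g (w i) (Sum.inl k) * algebraMap O K (y k) = (0 : K) := by
        refine Finset.sum_eq_zero fun k _ => ?_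
        simp [glueG]
      have e2 : ∑ k, glueG K g (w i) (Sum.inr k) * algebraMap O K (y' k) =
          algebraMap O K (∑ k, w i k * y' k) / algebraMap O K g := by
        rw [map_sum, Finset.sum_div]
        refine Finset.sum_congr rfl fun k _ => ?_
        simp only [glueG, Sum.elim_inr, map_mul]
        ring
      rw [e1, e2]
      generalize ∑ k, w i k * y' k = z
      simp only [map_neg, map_mul]
      field_simp
      ring
  have hG : ∀ s ∈ glueGen K M A g b y y' w, ∀ j,
      Matrix.toBilin' (psi K M M' g) s (glueG K g (w j)) ∈ (algebraMap O K).range := by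
    rintro s (⟨i, rfl⟩ | rfl | ⟨i, rfl⟩) j
    · rw [psi_glueG h]
      refine neg_mem ?_
      rw [dotProduct]
      refine sum_mem fun k _ => mul_mem ?_ ?_
      · by_cases hi : i = Sum.inr k
        · subst hi; exact ⟨1, by simp⟩
        · exact ⟨0, by simp [Pi.single_eq_of_ne (Ne.symm hi)]⟩
      · rw [Matrix.mulVec, dotProduct]
        exact sum_mem fun l _ => mul_mem ⟨_, rfl⟩ ⟨_, rfl⟩
    · rw [psi_symm h.sM h.sM']
      exact hF _ (Or.inr (Or.inr ⟨j, rfl⟩))
    · rw [psi_glueG h]
      obtain ⟨c, hc⟩ := h.w1 i j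
      refine ⟨-c, ?_⟩
      rw [map_neg, neg_inj]
      have h1 : (fun k => glueG K g (w i) (Sum.inr k)) =
          (algebraMap O K g)⁻¹ • ((algebraMap O K) ∘ (w i)) := by
        funext k
        simp only [glueG, Sum.elim_inr, Pi.smul_apply, smul_eq_mul, Function.comp_apply]
        ring
      have h2 : ((algebraMap O K) ∘ (w i)) ⬝ᵥ M'.map (algebraMap O K) *ᵥ
          (fun k => algebraMap O K (w j k)) = algebraMap O K (w i ⬝ᵥ M' *ᵥ w j) := by
        rw [RingHom.map_dotProduct]
        congr 1
        funext k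
        exact ((algebraMap O K).map_mulVec M' (w j) k).symm
      rw [h1, smul_dotProduct, h2, hc, map_mul, smul_eq_mul, inv_mul_cancel_left₀ hg]
  have hgen : ∀ s ∈ glueGen K M A g b y y' w, ∀ t ∈ glueGen K M A g b y y' w,
      Matrix.toBilin' (psi K M M' g) s t ∈ (algebraMap O K).range := by
    intro s hs t ht
    rcases ht with ⟨j, rfl⟩ | rfl | ⟨j, rfl⟩
    · rcases hs with ⟨i, rfl⟩ | rfl | ⟨i, rfl⟩
      · rw [psi_apply]
        have hsi : ∀ (x y : Fin 4 ⊕ Fin m), (Pi.single x 1 : Fin 4 ⊕ Fin m → K) y ∈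
            (algebraMap O K).range := by
          intro x y
          by_cases hxy : y = x
          · subst hxy; exact ⟨1, by simp⟩
          · exact ⟨0, by simp [Pi.single_eq_of_ne hxy]⟩
        refine sub_mem ?_ (mul_mem ⟨_, rfl⟩ ?_)
        · rw [dotProduct]
          refine sum_mem fun k _ => mul_mem (hsi _ _) ?_
          rw [Matrix.mulVec, dotProduct]
          exact sum_mem fun l _ => mul_mem ⟨_, rfl⟩ (hsi _ _)
        · rw [dotProduct]
          refine sum_mem fun k _ => mul_mem (hsi _ _) ?_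
          rw [Matrix.mulVec, dotProduct]
          exact sum_mem fun l _ => mul_mem ⟨_, rfl⟩ (hsi _ _)
      · rw [psi_symm h.sM h.sM']
        exact hF _ (Or.inl ⟨j, rfl⟩)
      · rw [psi_symm h.sM h.sM']
        exact hG _ (Or.inl ⟨j, rfl⟩) i
    · exact hF s hs
    · exact hG s hs j
  intro u hu v hv
  induction hu using Submodule.span_induction with
  | mem s hs =>
    induction hv using Submodule.span_induction with
    | mem t ht => exact hgen s hs t ht
    | zero => rw [map_zero]; exact zero_mem _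
    | add x y _ _ hx hy => rw [map_add]; exact add_mem hx hy
    | smul c x _ hx =>
      rw [← algebraMap_smul K c x, map_smul, smul_eq_mul]
      exact mul_mem ⟨_, rfl⟩ hx
  | zero => rw [map_zero, LinearMap.zero_apply]; exact zero_mem _
  | add x y _ _ hx hy => rw [map_add, LinearMap.add_apply]; exact add_mem hx hy
  | smul c x _ hx =>
    rw [← algebraMap_smul K c x, map_smul, LinearMap.smul_apply, smul_eq_mul]
    exact mul_mem ⟨_, rfl⟩ hx

lemma glue_dual (h : GlueC M M' A g b y y' w) (v : Fin 4 ⊕ Fin m → K)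
    (hv : ∀ u ∈ glueLat K M A g b y y' w,
      Matrix.toBilin' (psi K M M' g) v u ∈ (algebraMap O K).range) :
    v ∈ glueLat K M A g b y y' w := by
  set φ := algebraMap O K with hφ
  have hinj : Function.Injective φ := IsFractionRing.injective O K
  have hf : φ M.det ≠ 0 := by
    rw [Ne, map_eq_zero_iff _ hinj]
    exact h.f0
  have hg : φ g ≠ 0 := by
    rw [Ne, map_eq_zero_iff _ hinj]
    exact h.g0
  set δ := y ⬝ᵥ M.adjugate *ᵥ y with hδ
  set a₀ := y' ⬝ᵥ A *ᵥ y' with ha₀
  -- the first component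
  have h1 : ∀ i : Fin 4, ∃ a : O, φ a = (M.map φ *ᵥ fun i => v (Sum.inl i)) i := by
    intro i
    have h2 := hv _ (std_mem (K := K) (M := M) (A := A) (g := g) (b := b) (y := y) (y' := y') (w := w)
      (Pi.single (Sum.inl i) 1))
    rw [psi_symm h.sM h.sM', psi_apply] at h2
    have e1 : (fun j => (fun k => φ ((Pi.single (Sum.inl i) 1 : Fin 4 ⊕ Fin m → O) k))
        (Sum.inl j)) = Pi.single i 1 := by
      funext j
      by_cases hj : j = i
      · subst hj; simp
      · simp [Pi.single_eq_of_ne hj, Pi.single_eq_of_ne (show Sum.inl j ≠ Sum.inl i from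
          fun h => hj (Sum.inl.inj h))]
    have e2 : (fun j => (fun k => φ ((Pi.single (Sum.inl i) 1 : Fin 4 ⊕ Fin m → O) k))
        (Sum.inr j)) = 0 := by
      funext j
      simp
    rw [e1, e2, single_one_dotProduct, zero_dotProduct, mul_zero, sub_zero] at h2
    exact h2
  have h1' : ∀ i : Fin m, ∃ a : O, φ a = φ g * (M'.map φ *ᵥ fun i => v (Sum.inr i)) i := by
    intro i
    have h2 := hv _ (std_mem (K := K) (M := M) (A := A) (g := g) (b := b) (y := y) (y' := y') (w := w)
      (Pi.single (Sum.inr i) 1))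
    rw [psi_symm h.sM h.sM', psi_apply] at h2
    have e1 : (fun j => (fun k => φ ((Pi.single (Sum.inr i) 1 : Fin 4 ⊕ Fin m → O) k))
        (Sum.inr j)) = Pi.single i 1 := by
      funext j
      by_cases hj : j = i
      · subst hj; simp
      · simp [Pi.single_eq_of_ne hj, Pi.single_eq_of_ne (show Sum.inr j ≠ Sum.inr i from
          fun h => hj (Sum.inr.inj h))]
    have e2 : (fun j => (fun k => φ ((Pi.single (Sum.inr i) 1 : Fin 4 ⊕ Fin m → O) k))
        (Sum.inl j)) = 0 := by
      funext j
      simp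
    rw [e1, e2, single_one_dotProduct, zero_dotProduct, zero_sub] at h2
    obtain ⟨a, ha⟩ := h2
    exact ⟨-a, by rw [map_neg, ha, neg_neg]⟩
  choose a ha using h1
  choose a' ha' using h1'
  -- numerators
  set x : Fin 4 → O := M.adjugate *ᵥ a with hx
  set x' : Fin m → O := A *ᵥ a' with hx'
  have hAM : A * M' = M.det • (1 : Matrix (Fin m) (Fin m) O) := by
    have := congrArg Matrix.transpose h.hMA
    rw [Matrix.transpose_mul, h.sA.eq, h.sM'.eq, Matrix.transpose_smul,
      Matrix.transpose_one] at this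
    exact this
  have hxv : ∀ i, φ (x i) = φ M.det * v (Sum.inl i) := by
    intro i
    have e1 : (fun i => φ (a i)) = M.map φ *ᵥ fun i => v (Sum.inl i) := funext ha
    have e2 : φ (x i) = ((M.adjugate.map φ) *ᵥ fun i => φ (a i)) i := by
      rw [hx, RingHom.map_mulVec]
      rfl
    rw [e2, e1, Matrix.mulVec_mulVec, ← Matrix.map_mul, Matrix.adjugate_mul]
    rw [Matrix.mulVec, dotProduct, Finset.sum_eq_single i]
    · simp
    · intro j _ hj
      simp [Matrix.one_apply_ne (Ne.symm hj)]
    · simp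
  have hxv' : ∀ i, φ (x' i) = φ (M.det * g) * v (Sum.inr i) := by
    intro i
    have e1 : (fun i => φ (a' i)) = φ g • (M'.map φ *ᵥ fun i => v (Sum.inr i)) := funext ha'
    have e2 : φ (x' i) = ((A.map φ) *ᵥ fun i => φ (a' i)) i := by
      rw [hx', RingHom.map_mulVec]
      rfl
    rw [e2, e1, Matrix.mulVec_smul, Matrix.mulVec_mulVec, ← Matrix.map_mul, hAM, Pi.smul_apply]
    rw [Matrix.mulVec, dotProduct, Finset.sum_eq_single i]
    · simp
      ring
    · intro j _ hj
      simp [Matrix.one_apply_ne (Ne.symm hj)]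
    · simp
  obtain ⟨α, β, hαβ⟩ := h.cop
  -- decomposition
  have hdec : v = (α * M.det) • v + (β * g) • v := by
    rw [← add_smul, hαβ, one_smul]
  rw [hdec]
  refine Submodule.add_mem _ ?_ ?_
  · -- the part with denominator `g`
    have hw : ∀ i, g ∣ (α • x') ⬝ᵥ M' *ᵥ w i := by
      intro i
      obtain ⟨t, ht⟩ := hv _ (glueG_mem (K := K) (M := M) (A := A) (g := g) (b := b) (y := y) (y' := y')
        (w := w) i)
      refine ⟨-(α * M.det * t), ?_⟩
      apply hinj
      rw [psi_glueG h] at ht
      have e1 : φ ((α • x') ⬝ᵥ M' *ᵥ w i) = φ (α * M.det * g) *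
          ((fun i => v (Sum.inr i)) ⬝ᵥ M'.map φ *ᵥ fun k => φ (w i k)) := by
        rw [smul_dotProduct, smul_eq_mul, map_mul, RingHom.map_dotProduct]
        have e2 : (φ ∘ x') = φ (M.det * g) • (fun i => v (Sum.inr i)) := funext hxv'
        have e3 : φ ∘ (M' *ᵥ w i) = M'.map φ *ᵥ fun k => φ (w i k) := by
          funext k
          exact φ.map_mulVec M' (w i) k
        rw [e2, e3, smul_dotProduct, smul_eq_mul, ← mul_assoc, ← map_mul]
        congr 2
        ring
      rw [e1]
      have e4 : ((fun i => v (Sum.inr i)) ⬝ᵥ M'.map φ *ᵥ fun k => φ (w i k)) = -φ t := by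
        rw [ht, neg_neg]
      rw [e4]
      simp only [map_mul, map_neg]
      ring
    obtain ⟨c, y, hcy⟩ := h.w2 _ hw
    have : (α * M.det) • v = (fun i => φ ((Sum.elim (α • x) y : Fin 4 ⊕ Fin m → O) i)) +
        ∑ i, c i • glueG K g (w i) := by
      funext j
      rw [← algebraMap_smul K, Pi.smul_apply, Pi.add_apply, Finset.sum_apply, smul_eq_mul]
      rcases j with j | j
      · have : ∀ i, (c i • glueG K g (w i)) (Sum.inl j) = 0 := by
          intro i
          rw [← algebraMap_smul K, Pi.smul_apply]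
          simp [glueG]
        simp only [this, Finset.sum_const_zero, add_zero, Sum.elim_inl, Pi.smul_apply,
          smul_eq_mul, map_mul]
        rw [hxv, mul_assoc]
      · have : ∀ i, (c i • glueG K g (w i)) (Sum.inr j) = φ (c i * w i j) / φ g := by
          intro i
          rw [← algebraMap_smul K, Pi.smul_apply]
          simp only [glueG, Sum.elim_inr, smul_eq_mul, map_mul, ← hφ]
          ring
        simp only [this, Sum.elim_inr]
        have e5 := congrArg φ (congrFun hcy j)
        simp only [Pi.smul_apply, Pi.add_apply, Finset.sum_apply, smul_eq_mul, map_mul,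
          map_add, map_sum, hxv'] at e5
        rw [← Finset.sum_div]
        simp only [map_mul]
        field_simp
        linear_combination e5
    rw [this]
    exact Submodule.add_mem _ (std_mem _)
      (Submodule.sum_mem _ fun i _ => Submodule.smul_mem _ _ (glueG_mem i))
  · -- the part with denominator `f`
    have hrel : M.det ∣ b * (β * g * (y ⬝ᵥ x)) - g * δ * (β * (y' ⬝ᵥ x')) := by
      obtain ⟨t, ht⟩ := hv _ (glueV_mem (K := K) (M := M) (A := A) (g := g) (b := b) (y := y)
        (y' := y') (w := w))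
      refine ⟨β * g * t, ?_⟩
      apply hinj
      rw [psi_glueV h] at ht
      have k1 : φ (y ⬝ᵥ x) = φ M.det * ∑ i, v (Sum.inl i) * φ (y i) := by
        rw [dotProduct, map_sum, Finset.mul_sum]
        refine Finset.sum_congr rfl fun i _ => ?_
        rw [map_mul, hxv]
        ring
      have k2 : φ (y' ⬝ᵥ x') = φ (M.det * g) * ∑ i, v (Sum.inr i) * φ (y' i) := by
        rw [dotProduct, map_sum, Finset.mul_sum]
        refine Finset.sum_congr rfl fun i _ => ?_
        rw [map_mul, hxv']
        ring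
      simp only [map_sub, map_mul] at k2 ht ⊢
      rw [k1, k2, ht]
      ring
    have hpδ : IsCoprime M.det δ := h.cδ
    have hpb : IsCoprime M.det b := by
      have h1 : IsCoprime M.det (δ * g * a₀) := (hpδ.mul_right h.cop).mul_right h.cA
      obtain ⟨t, ht⟩ := h.hb
      have h2 : b ^ 2 = δ * g * a₀ + M.det * t := by linear_combination ht
      have h3 : IsCoprime M.det (b ^ 2) := by
        rw [h2]
        exact h1.add_mul_left_right t
      exact (IsCoprime.pow_right_iff (by norm_num)).1 h3
    obtain ⟨s, t, hst⟩ : IsCoprime (b * δ) M.det := (hpb.mul_right hpδ).symm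
    set z : Fin 4 → O := fun i => β * g * x i with hz
    set z' : Fin m → O := fun i => β * x' i with hz'
    set cy : Fin 4 → O := M.adjugate *ᵥ y with hcy
    set cy' : Fin m → O := A *ᵥ y' with hcy'
    have hAdj : M.adjugate.IsSymm := h.sM.adjugate
    have hyx : y ⬝ᵥ x = ∑ j, cy j * a j := by
      have h1 : y ⬝ᵥ (M.adjugate *ᵥ a) = (M.adjugate *ᵥ y) ⬝ᵥ a := by
        rw [Matrix.dotProduct_mulVec, ← Matrix.mulVec_transpose, hAdj.eq]
      exact h1
    have hyx' : y' ⬝ᵥ x' = ∑ j, cy' j * a' j := by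
      have h1 : y' ⬝ᵥ (A *ᵥ a') = (A *ᵥ y') ⬝ᵥ a' := by
        rw [Matrix.dotProduct_mulVec, ← Matrix.mulVec_transpose, h.sA.eq]
      exact h1
    -- proportionality of the columns
    have hz1 : ∀ i, M.det ∣ δ * z i - (β * g * (y ⬝ᵥ x)) * cy i := by
      intro i
      have : δ * z i - (β * g * (y ⬝ᵥ x)) * cy i =
          ∑ j, β * g * a j * (δ * M.adjugate i j - cy i * cy j) := by
        rw [hyx]
        simp only [hz, hx, Matrix.mulVec, dotProduct, Finset.mul_sum, Finset.sum_mul, mul_sub,
          Finset.sum_sub_distrib]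
        congr 1 <;> exact Finset.sum_congr rfl fun j _ => by ring
      rw [this]
      exact Finset.dvd_sum fun j _ => (h.rM i j).mul_left _
    have hz2 : ∀ i, M.det ∣ a₀ * z' i - (β * (y' ⬝ᵥ x')) * cy' i := by
      intro i
      have : a₀ * z' i - (β * (y' ⬝ᵥ x')) * cy' i =
          ∑ j, β * a' j * (a₀ * A i j - cy' i * cy' j) := by
        rw [hyx']
        simp only [hz', hx', Matrix.mulVec, dotProduct, Finset.mul_sum, Finset.sum_mul, mul_sub,
          Finset.sum_sub_distrib]
        congr 1 <;> exact Finset.sum_congr rfl fun j _ => by ring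
      rw [this]
      exact Finset.dvd_sum fun j _ => (h.rA i j).mul_left _
    set Y := β * g * (y ⬝ᵥ x) with hY
    set Y' := β * (y' ⬝ᵥ x') with hY'
    -- the multiplier
    set lam : O := s * Y with hlam
    have hc1 : ∀ i, M.det ∣ z i - lam * (b * cy i) := by
      intro i
      have h2 : M.det ∣ δ * (z i - lam * (b * cy i)) := by
        have : δ * (z i - lam * (b * cy i)) =
            (δ * z i - Y * cy i) + M.det * (t * (Y * cy i)) := by
          rw [hlam]
          linear_combination (-(Y * cy i)) * hst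
        rw [this]
        exact dvd_add (hz1 i) (Dvd.intro _ rfl)
      exact hpδ.dvd_of_dvd_mul_left h2
    have hc2 : ∀ i, M.det ∣ z' i - lam * (δ * cy' i) := by
      intro i
      have h0 : M.det ∣ b * Y' - a₀ * Y := by
        have h2 : M.det ∣ b * (b * Y' - a₀ * Y) := by
          have : b * (b * Y' - a₀ * Y) =
              Y' * (b ^ 2 - δ * g * a₀) - a₀ * (b * Y - g * δ * Y') := by ring
          rw [this]
          exact dvd_sub (h.hb.mul_left _) (hrel.mul_left _)
        exact hpb.dvd_of_dvd_mul_left h2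
      have h2 : M.det ∣ a₀ * b * (z' i - lam * (δ * cy' i)) := by
        have : a₀ * b * (z' i - lam * (δ * cy' i)) =
            b * (a₀ * z' i - Y' * cy' i) + cy' i * (b * Y' - a₀ * Y) +
              M.det * (t * (a₀ * Y * cy' i)) := by
          rw [hlam]
          linear_combination (-(a₀ * Y * cy' i)) * hst
        rw [this]
        exact dvd_add (dvd_add ((hz2 i).mul_left _) (h0.mul_left _)) (Dvd.intro _ rfl)
      exact (h.cA.mul_right hpb).dvd_of_dvd_mul_left h2
    choose r hr using hc1
    choose r' hr' using hc2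
    have : (β * g) • v = (fun i => φ ((Sum.elim r r' : Fin 4 ⊕ Fin m → O) i)) +
        lam • glueV K M A b y y' := by
      funext j
      rw [← algebraMap_smul K (β * g) v, ← algebraMap_smul K lam (glueV K M A b y y'),
        Pi.smul_apply, Pi.add_apply, Pi.smul_apply, smul_eq_mul, smul_eq_mul]
      rcases j with j | j
      · simp only [glueV, Sum.elim_inl]
        have e1 := congrArg φ (hr j)
        have e2 := hxv j
        simp only [hz, map_sub, map_mul] at e1 e2 ⊢
        rw [← hφ, ← hcy]
        field_simp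
        linear_combination e1 + (-(φ β * φ g)) * e2
      · simp only [glueV, Sum.elim_inr]
        have e1 := congrArg φ (hr' j)
        have e2 := hxv' j
        simp only [hz', map_sub, map_mul] at e1 e2 ⊢
        rw [← hφ, ← hδ, ← hcy']
        field_simp
        linear_combination e1 + (-(φ β)) * e2
    rw [this]
    exact Submodule.add_mem _ (std_mem _) (Submodule.smul_mem _ _ glueV_mem)

theorem glue_selfDual (h : GlueC M M' A g b y y' w) :
    SelfDual (Matrix.toBilin' (psi K M M' g)) ⊤ (glueLat K M A g b y y' w) := by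
  have hinj : Function.Injective (algebraMap O K) := IsFractionRing.injective O K
  refine ⟨fun _ _ => trivial, ?_, glue_int h, fun v _ hv => glue_dual h v hv, ?_, ?_⟩
  · refine Submodule.fg_span ?_
    exact (Set.finite_range _).union ((Set.finite_singleton _).union (Set.finite_range _))
  · intro v _
    obtain ⟨D, hD⟩ := IsLocalization.exist_integer_multiples_of_finite (nonZeroDivisors O) v
    choose p hp using hD
    refine ⟨D, nonZeroDivisors.ne_zero D.2, ?_⟩
    have : (D : O) • v = fun i => algebraMap O K (p i) := by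
      funext i
      rw [hp i]
      rfl
    rw [this]
    exact std_mem p
  · intro v _ hv
    have hdet : (psi K M M' g).det ≠ 0 := by
      rw [det_psi]
      have hf : algebraMap O K M.det ≠ 0 := by
        rw [Ne, map_eq_zero_iff _ hinj]
        exact h.f0
      have hg : algebraMap O K g ≠ 0 := by
        rw [Ne, map_eq_zero_iff _ hinj]
        exact h.g0
      have hM' : algebraMap O K M'.det ≠ 0 := by
        rw [Ne, map_eq_zero_iff _ hinj]
        intro h0
        have h1 := congrArg Matrix.det h.hMA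
        rw [Matrix.det_mul, h0, zero_mul, Matrix.det_smul, Matrix.det_one, mul_one] at h1
        exact h.f0 (eq_zero_of_pow_eq_zero h1.symm)
      exact mul_ne_zero hf (mul_ne_zero (pow_ne_zero _ (neg_ne_zero.mpr hg)) hM')
    have h1 : psi K M M' g *ᵥ v = 0 := by
      funext j
      have := hv (Pi.single j 1) trivial
      rw [psi_symm h.sM h.sM', Matrix.toBilin'_apply', single_one_dotProduct] at this
      exact this
    exact Matrix.eq_zero_of_mulVec_eq_zero hdet h1

section poly

open Polynomial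

theorem glue_lagrangian (k : Type*) [Field k] [IsAlgClosed k] [CharZero k]
    {F : Type*} [Field F] [Algebra k[X] F] [IsFractionRing k[X] F]
    (K : Type*) [Field K] [Algebra F[X] K] [IsFractionRing F[X] K]
    {n : ℕ} {ι : Type*} [Fintype ι] {M : Matrix (Fin 4) (Fin 4) F[X]}
    {M' A : Matrix (Fin (2 * n)) (Fin (2 * n)) F[X]} {g b : F[X]} {y : Fin 4 → F[X]}
    {y' : Fin (2 * n) → F[X]}
    {w : ι → Fin (2 * n) → F[X]} (h : GlueC M M' A g b y y' w)
    (hsq : IsSquare (algebraMap F[X] K (M.det * M'.det))) :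
    ∃ U : Submodule K (Fin 4 ⊕ Fin (2 * n) → K),
      (∀ x ∈ U, ∀ y ∈ U, Matrix.toBilin' (psi K M M' g) x y = 0) ∧ finrank K U = 2 + n := by
  obtain ⟨U, -, hU, hUn⟩ := SelfDual.exists_lagrangian k (glue_selfDual (K := K) h)
    (psi_symm h.sM h.sM') (2 + n) (by
      rw [finrank_top, finrank_fintype_fun_eq_card, Fintype.card_sum, Fintype.card_fin,
        Fintype.card_fin]
      ring) (sq_of_isSquare_det _ (by
      rw [det_psi]
      obtain ⟨s, hs⟩ := hsq
      rw [map_mul] at hs
      refine ⟨s * (-(algebraMap F[X] K g)) ^ n, ?_⟩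
      rw [pow_mul, show (-(algebraMap F[X] K g)) ^ 2 = (-(algebraMap F[X] K g)) *
        (-(algebraMap F[X] K g)) from pow_two _, mul_pow]
      linear_combination (-(algebraMap F[X] K g)) ^ n * (-(algebraMap F[X] K g)) ^ n * hs))
  exact ⟨U, hU, hUn⟩

end poly

end Vale.Agent.P287.Nod
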