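import Vale.Agent.P287.Nod.BlockD1
import Vale.Agent.P287.Nod.SpecF
import Vale.Agent.P287.EvenN.Final
import Vale.Agent.P287.H946.StmtA
import Vale.Agent.P287.H946.StmtS
import Vale.Agent.P287.H946.StmtF2
import Vale.Agent.P287.H621.Nod.B
import Vale.Agent.P287.H270.Nod.StmtC

/-!
Scrolls of lines over plane curves of even degree in smooth cubic fourfolds which contain a plane,
without any hypothesis on the discriminant sextic: assembly.
-/

namespace Vale.Agent.P287.Nod

open Polynomial Matrix Module Vale.Agent.P287 Vale.Agent.P287.Theta Vale.Agent.P287.Odd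
open Vale.Agent.P287.EvenN Vale.Agent.P287.H925 Vale.Agent.P287.H925.NetResult

/-- The quadratic form of the fibration is isotropic, or similar to a net of quadrics after adding
a hyperbolic plane. -/
def Alt (M : Matrix (Fin 4) (Fin 4) R3) : Prop :=
  (∃ v : Fin 4 → RatK, v ≠ 0 ∧ v ⬝ᵥ (M.map (MvPolynomial.aeval tvec)) *ᵥ v = 0) ∨
    ∃ (Q : Fin 3 → Matrix (Fin 6) (Fin 6) ℂ) (l : RatK), l ≠ 0 ∧
      ∃ φ : ((Fin 4 → RatK) × RatK × RatK) ≃ₗ[RatK] (Fin 6 → RatK), ∀ v a b,
        net Q tvec (φ (v, a, b)) =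
          l * (v ⬝ᵥ (M.map (MvPolynomial.aeval tvec)) *ᵥ v + a * b)

theorem rational_of_alt {M : Matrix (Fin 4) (Fin 4) R3}
    (hdeg : ∀ i j, (M i j).IsHomogeneous (1 + wt i + wt j)) (hs : SmoothForm (cubicOf M))
    (h : Alt (M.submatrix sw sw)) : RationalHypersurface (cubicOf M) := by
  rcases h with ⟨v, hv, hqv⟩ | ⟨Q, l, hl, φ, hφ⟩
  · refine rational_of_isotropic_matrix M hdeg hs (v ∘ sw) ?_ ?_
    · intro h
      apply hv
      funext i
      have := congrFun h (sw i)
      simpa using this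
    · rw [← hqv]
      simp only [dotProduct, Matrix.mulVec, Matrix.map_apply, Matrix.submatrix_apply]
      rw [← Equiv.sum_comp sw]
      refine Finset.sum_congr rfl fun i _ => ?_
      rw [← Equiv.sum_comp sw]
      simp
  · refine net_result (cubicOf M) (cubicOf_homogeneous M hdeg) hs (qM M)
      (fun w => by rw [qM_apply, aeval_wvec_cubicOf M hdeg]) Q ?_
    let τ : (Fin 4 → RatK) ≃ₗ[RatK] (Fin 4 → RatK) :=
      LinearEquiv.funCongrLeft RatK RatK (sw.trans perm4)
    refine ⟨l, hl, (LinearEquiv.prodCongr τ (LinearEquiv.refl RatK (RatK × RatK))).trans φ, ?_⟩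
    intro v a b
    have h1 : ((LinearEquiv.prodCongr τ (LinearEquiv.refl RatK (RatK × RatK))).trans φ)
        (v, a, b) = φ (fun i => v (perm4 (sw i)), a, b) := rfl
    rw [h1, hφ, qM_apply]
    congr 2
    simp only [dotProduct, Matrix.mulVec, Matrix.map_apply, Matrix.submatrix_apply,
      Function.comp_apply]
    rw [← Equiv.sum_comp sw]
    refine Finset.sum_congr rfl fun i _ => ?_
    rw [← Equiv.sum_comp sw]
    simp

/-- The alternative, from a scroll of lines over a plane curve of even degree with the right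
parity. -/
theorem alt_of_scroll (hF1 : StmtF1) {M : Matrix (Fin 4) (Fin 4) R3} {g : R3} {r : ℕ}
    {w : Fin 2 → Fin 4 → R3} (H : ScrollN M g r w) (hsf : Squarefree M.det)
    (hodd : ∀ N : ℕ, ∃ d, N ≤ d ∧ Odd (finrank ℂ (Phi g w d) + d + r)) : Alt M := by
  have hr := H.pos
  have hB : ConclB M g r w := H621.Nod.stmtB H946.stmtA M g r w H
  obtain ⟨e, he⟩ := H.whom
  obtain ⟨i, j, hij⟩ := H.ind
  have hsq : SquareMod M.det g := squareMod_of_plane H.fib.symm he H.iso hij
  rcases hF1 M g r w H hsf.ne_zero (hB.parity hodd) with h1 | ⟨v, hv, hind⟩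
  · obtain ⟨M', A, v, c0, HX⟩ := H270.stmtC M g r w H hB hsf h1
    exact stmtD6 M g (2 * r) H.fib (by omega) H.hom H.irr H.ndvd hsq hsf M' A v c0 HX
  · rcases H946.stmtF2 M g r w H hB hsf v hv hind with
      ⟨N, c, hc, hN, hdet, hvN⟩ | ⟨h, s, hh, hh0, hs, hs', hvs⟩
    · exact Or.inl (stmtD2 M g (2 * r) H.fib (by omega) H.hom H.irr H.ndvd hsq hsf N v c hc hN
        hdet hvN)
    · exact Or.inl (stmtD1 M g (2 * r) H.fib (by omega) H.hom H.irr H.ndvd hsq hsf h s v hh hh0
        hs hs' hvs)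

/-- **Even scrolls, numerical form, arbitrary discriminant sextic.** -/
theorem even_scroll_of (hF1 : StmtF1) {M : Matrix (Fin 4) (Fin 4) R3} (hM : M.IsSymm)
    (hdeg : ∀ i j, (M i j).IsHomogeneous (1 + wt i + wt j)) (hs : SmoothForm (cubicOf M))
    {g : R3} {r : ℕ} (hg : Irreducible g) (hgr : g.IsHomogeneous (2 * r))
    (hgf : ¬ g ∣ M.det) {w : Fin 2 → Fin 4 → R3} {e : Fin 2 → ℕ}
    (hw : ∀ a i, (w a i).IsHomogeneous (e a + 1 - wt i))
    (hiso : ∀ a b, g ∣ w a ⬝ᵥ (M *ᵥ w b)) {i j : Fin 4}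
    (hij : ¬ g ∣ w 0 i * w 1 j - w 0 j * w 1 i)
    (hodd : ∀ N : ℕ, ∃ d, N ≤ d ∧ Odd (finrank ℂ (PhiW g w wt d) + d + r)) :
    RationalHypersurface (cubicOf M) := by
  have hdet : (M.submatrix sw sw).det = M.det := Matrix.det_submatrix_equiv_self sw M
  have hr : 1 ≤ r := by
    by_contra h
    obtain rfl : r = 0 := by omega
    exact hg.not_isUnit (isUnit_of_homog_zero hgr hg.ne_zero)
  have hsw : ∀ i, sw (sw i) = i := by decide
  have hfs := fibShape_sw hM hdeg
  have hw' : ∀ a i, (w a (sw i)).IsHomogeneous (e a + 1 - wt0 i) := by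
    intro a i
    have h := hw a (sw i)
    rwa [wt_sw] at h
  have hdot : ∀ a b, (fun i => w a (sw i)) ⬝ᵥ (M.submatrix sw sw *ᵥ fun i => w b (sw i)) =
      w a ⬝ᵥ (M *ᵥ w b) := by
    intro a b
    simp only [dotProduct, Matrix.mulVec, Matrix.submatrix_apply]
    rw [← Equiv.sum_comp sw (fun i => w a i * ∑ j, M i j * w b j)]
    refine Finset.sum_congr rfl fun i _ => ?_
    rw [← Equiv.sum_comp sw (fun j => M (sw i) j * w b j)]
  have hsf : Squarefree M.det := H946.stmtS M hM hdeg hs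
  refine rational_of_alt hdeg hs (alt_of_scroll hF1 (g := g) (r := r)
    (w := fun a i => w a (sw i)) ⟨hfs, hr, hgr, hg, by rw [hdet]; exact hgf, ⟨e, hw'⟩,
      fun a b => by rw [hdot]; exact hiso a b, ⟨sw i, sw j, ?_⟩⟩ (by rw [hdet]; exact hsf) ?_)
  · simp only [mnr2, hsw]
    exact hij
  · intro N
    obtain ⟨d, hd, hd'⟩ := hodd N
    exact ⟨d, hd, by rwa [finrank_PhiW]⟩

end Vale.Agent.P287.Nod
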